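import Claimed.Agent.R291.Ann.LenCyl
import Claimed.Agent.R291.Ann.RswCyl

/-!
# Row 291, Exit/AnnFkgR : FKG ON THE MIXED CYLINDER UNDER RECORDS      CONTRACT A2 (193) <- A0 (typed by helper193; PROVED by helper180, prefix `afk_`)
`LcyFkg x` (def in `Ann/LenCyl`) : for `S = sdSys x L T 0 H`, `K = lcyK L H` (first spin plus on the row `H`, minus on the row `0`):  `LenFkg S K` =
 (base) association of `ClMono` observables under `K.Holds S`;   (obs) the same under `lenObs S K Q ω₀` = `K` + the full observation (statuses + all first spins) of `ω₀` on any set `Q ⊆ S.C` of cells.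
The cylinder is NOT a `ClDisk`.   PROOF: the capped ambient `rscAmb` of helper255 (`Ann/RswCyl`: `rsc_amb_disk`) + `am_fkg` (22): the cylinder is the MINUS cut law of the ambient disc;
**`afk_core`**: association under EVERY legal history of the cylinder which pins the row `0` minus (free to cite: any record, any extra pins).
`ClMono S F` does not make `F` local (it may read `B` off the sites): `F` is replaced by `F ∘ afkRes` (restriction to the sites and cells of the cylinder), equal to `F` on `S.cfgs`.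
-/

set_option autoImplicit false

namespace Claimed.Agent.R291

open Claims Claims.C0467

/-- restriction of a configuration to the sites `I` and the cells `J` -/
def afkRes (I J : Finset TV) (ω : ClCfg TV TV) : ClCfg TV TV := ⟨ω.B ∩ I, ω.W ∩ I, ω.O ∩ J⟩

theorem afk_eqns_cite : True := by
  have := @afkRes.eq_1
  trivial

theorem afk_cin (x : ℝ) (L : ℕ) (T : Bool) (a b : ℤ) : (sdSys x L T a b).cin (sdSites L a b) = sdCells L a b := by
  unfold ClSys.cin
  exact Finset.filter_true_of_mem fun y hy => rsc_cell_sub hy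

/-- the status of a cell of the cylinder is not changed by the restriction -/
theorem afk_tau_res (x : ℝ) (L : ℕ) (T : Bool) (a b : ℤ) (ω : ClCfg TV TV) {y : TV} (hy : y ∈ sdCells L a b) :
    clTau (sdSys x L T a b) (afkRes (sdSites L a b) (sdCells L a b) ω) y = clTau (sdSys x L T a b) ω y := by
  have hs : (sdSys x L T a b).sv y ⊆ sdSites L a b := rsc_cell_sub hy
  have h1 : y ∈ ω.O ∩ sdCells L a b ↔ y ∈ ω.O := by simp [hy]
  have h2 : (sdSys x L T a b).sv y ⊆ ω.B ∩ sdSites L a b ↔ (sdSys x L T a b).sv y ⊆ ω.B :=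
    ⟨fun h => h.trans Finset.inter_subset_left, fun h => Finset.subset_inter h hs⟩
  unfold clTau afkRes
  simp only [h1, h2]

theorem afk_res_cfgs (x : ℝ) (L : ℕ) (T : Bool) (a b : ℤ) {ω : ClCfg TV TV} (hω : ω ∈ (sdSys x L T a b).cfgs) :
    afkRes (sdSites L a b) (sdCells L a b) ω = ω := by
  obtain ⟨h1, h2, h3⟩ := (cl_mem_cfgs _ _).1 hω
  unfold afkRes
  ext1
  · exact Finset.inter_eq_left.2 h1
  · exact Finset.inter_eq_left.2 h2
  · exact Finset.inter_eq_left.2 h3

/-- an increasing observable of the cylinder, restricted, is increasing on the ambient disc -/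
theorem afk_mono (x : ℝ) (L : ℕ) (T : Bool) (a b : ℤ) {F : ClCfg TV TV → ℝ} (hF : ClMono (sdSys x L T a b) F) :
    ClMono (rscAmb x L T a b) (fun ω => F (afkRes (sdSites L a b) (sdCells L a b) ω)) := by
  intro ω ω' hB hτ
  refine hF _ _ (Finset.inter_subset_inter_right hB) fun y hy => ?_
  have hy' : y ∈ sdCells L a b := hy
  have hC : y ∈ (rscAmb x L T a b).C := by
    obtain ⟨h01, h2, h3⟩ := rsc_mem_cells.1 hy'
    exact (rsc_amb_mem_C x L T a b).2 ⟨h01, by omega, h3⟩
  have := hτ y hC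
  rw [rsc_amb_tau x L T a b ω hy', rsc_amb_tau x L T a b ω' hy'] at this
  rw [afk_tau_res x L T a b ω hy', afk_tau_res x L T a b ω' hy']
  exact this

theorem afk_loc (x : ℝ) (L : ℕ) (T : Bool) (a b : ℤ) (F : ClCfg TV TV → ℝ) :
    ClLoc (sdSites L a b) ((rscAmb x L T a b).cin (sdSites L a b)) (fun ω => F (afkRes (sdSites L a b) (sdCells L a b) ω)) := by
  intro ω ω' hB hW hO
  rw [rsc_amb_cin] at hO
  unfold afkRes
  simp only [hB, hW, hO]

/-- a history of the cylinder holds in the ambient iff it holds in the cylinder -/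
theorem afk_holds (x : ℝ) (L : ℕ) (T : Bool) (a b : ℤ) {K : ClCon TV TV} (hin : K.In (sdSys x L T a b) (sdSites L a b)) (ω : ClCfg TV TV) :
    K.Holds (rscAmb x L T a b) ω ↔ K.Holds (sdSys x L T a b) ω := by
  have hop : ∀ y ∈ K.Op, clTau (rscAmb x L T a b) ω y = clTau (sdSys x L T a b) ω y := fun y hy =>
    rsc_amb_tau x L T a b ω (by rw [← afk_cin x L T a b]; exact hin.op hy)
  have hom : ∀ y ∈ K.Om, clTau (rscAmb x L T a b) ω y = clTau (sdSys x L T a b) ω y := fun y hy =>
    rsc_amb_tau x L T a b ω (by rw [← afk_cin x L T a b]; exact hin.om hy)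
  unfold ClCon.Holds
  constructor
  · rintro ⟨h1, h2, h3, h4, h5, h6⟩
    exact ⟨h1, h2, h3, fun y hy => by rw [← hop y hy]; exact h4 y hy, fun y hy => by rw [← hom y hy]; exact h5 y hy, h6⟩
  · rintro ⟨h1, h2, h3, h4, h5, h6⟩
    exact ⟨h1, h2, h3, fun y hy => by rw [hop y hy]; exact h4 y hy, fun y hy => by rw [hom y hy]; exact h5 y hy, h6⟩

theorem afk_sv (x : ℝ) (L : ℕ) (T : Bool) (a b : ℤ) {y : TV} (hy : y ∈ sdCells L a b) : (rscAmb x L T a b).sv y = (sdSys x L T a b).sv y :=
  rsc_amb_sv1 x L T a b (by have := (rsc_mem_cells.1 hy).2.1; omega)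

theorem afk_legal (x : ℝ) (L : ℕ) (T : Bool) (a b : ℤ) {K : ClCon TV TV} (hleg : ClLegal (sdSys x L T a b) K)
    (hin : K.In (sdSys x L T a b) (sdSites L a b)) : ClLegal (rscAmb x L T a b) K where
  wp := hleg.wp
  wm := hleg.wm
  full := fun y _ hm => by
    have hy : y ∈ sdCells L a b := by
      rw [← afk_cin x L T a b]
      rcases Finset.mem_union.1 hm with h | h
      · rcases Finset.mem_union.1 h with h | h
        · exact hin.op h
        · exact hin.om h
      · exact hin.cl h
    rw [afk_sv x L T a b hy]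
    exact hleg.full y hy hm
  eq := fun e he => by
    obtain ⟨y, hy, h1, h2⟩ := hleg.eq e he
    have hy' : y ∈ sdCells L a b := hy
    have hC : y ∈ (rscAmb x L T a b).C := by
      obtain ⟨h01, h2, h3⟩ := rsc_mem_cells.1 hy'
      exact (rsc_amb_mem_C x L T a b).2 ⟨h01, by omega, h3⟩
    exact ⟨y, hC, by rw [afk_sv x L T a b hy']; exact h1, by rw [afk_sv x L T a b hy']; exact h2⟩

theorem afk_in (x : ℝ) (L : ℕ) (T : Bool) (a b : ℤ) {K : ClCon TV TV} (hin : K.In (sdSys x L T a b) (sdSites L a b)) :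
    K.In (rscAmb x L T a b) (sdSites L a b) where
  bp := hin.bp
  bm := hin.bm
  eq := hin.eq
  op := by rw [rsc_amb_cin, ← afk_cin x L T a b]; exact hin.op
  om := by rw [rsc_amb_cin, ← afk_cin x L T a b]; exact hin.om
  cl := by rw [rsc_amb_cin, ← afk_cin x L T a b]; exact hin.cl
  wp := hin.wp
  wm := hin.wm

/-- the MINUS cut law of the ambient under a history which pins the row `a` minus = the cylinder under the history -/
theorem afk_cut (x : ℝ) (L : ℕ) (T : Bool) (a b : ℤ) (hab : a ≤ b) {K : ClCon TV TV} (hin : K.In (sdSys x L T a b) (sdSites L a b))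
    (h0 : sdRow L a ⊆ K.Bm) (F : ClCfg TV TV → ℝ) :
    cuE (rscAmb x L T a b) false (sdSites L a b) (K.Holds (rscAmb x L T a b)) (fun ω => F (afkRes (sdSites L a b) (sdCells L a b) ω))
      = (sdSys x L T a b).E (K.Holds (sdSys x L T a b)) F := by
  unfold cuE
  rw [am_sys_E_congr ((rscAmb x L T a b).inn (sdSites L a b)) (sdSys x L T a b) rfl (rsc_amb_cin x L T a b) (fun y hy => ?_) (fun _ _ => rfl),
    rsc_amb_lay x L T a b hab]
  · have hK : ∀ ω ∈ (sdSys x L T a b).cfgs, ((CuPin false (sdRow L a) ω ∧ K.Holds (rscAmb x L T a b) ω) ↔ K.Holds (sdSys x L T a b) ω) := fun ω _ => by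
      rw [afk_holds x L T a b hin]
      refine ⟨fun h => h.2, fun h => ⟨fun v hv => ?_, h⟩⟩
      simp only [Bool.false_eq_true, iff_false]
      exact h.2.1 v (h0 hv)
    rw [dis_E_eq, dis_E_eq, dis_Z_eq, dis_Z_eq, rsq_N_congr _ hK (fun ω hω => by rw [afk_res_cfgs x L T a b hω]),
      rsq_N_congr (F := fun _ => (1 : ℝ)) _ hK (fun _ _ => rfl)]
  · have hy' : y ∈ sdCells L a b := by rw [← rsc_amb_cin x L T a b]; exact hy
    exact afk_sv x L T a b hy'

/-- **association on the mixed cylinder under EVERY legal history of the cylinder which pins the bottom row minus** -/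
theorem afk_core (x : ℝ) (hx0 : 0 < x) (hx1 : x ≤ 1) (L : ℕ) (hL : 2 ≤ L) (T : Bool) (a b : ℤ) (hab : a < b) (K : ClCon TV TV)
    (hleg : ClLegal (sdSys x L T a b) K) (hin : K.In (sdSys x L T a b) (sdSites L a b)) (h0 : sdRow L a ⊆ K.Bm)
    (F G : ClCfg TV TV → ℝ) (hF : ClMono (sdSys x L T a b) F) (hG : ClMono (sdSys x L T a b) G) :
    (sdSys x L T a b).N (K.Holds (sdSys x L T a b)) F * (sdSys x L T a b).N (K.Holds (sdSys x L T a b)) G ≤
      (sdSys x L T a b).Z (K.Holds (sdSys x L T a b)) * (sdSys x L T a b).N (K.Holds (sdSys x L T a b)) (fun ω => F ω * G ω) := by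
  have hO := rsc_sys_ok x hx0 hx1 L T a b
  by_cases hz : (sdSys x L T a b).Z (K.Holds (sdSys x L T a b)) = 0
  · rw [am_N_zero _ hO _ hz F, hz, zero_mul, zero_mul]
  have hZ : 0 < (sdSys x L T a b).Z (K.Holds (sdSys x L T a b)) := lt_of_le_of_ne (amo_Z_nonneg _ hO _) (Ne.symm hz)
  have h := am_fkg (rscAmb x L T a b) (rsc_amb_disk x hx0 hx1 L hL T a b hab) false (sdSites L a b) (Finset.subset_insert _ _) K
    (afk_legal x L T a b hleg hin) (afk_in x L T a b hin) _ _ (afk_mono x L T a b hF) (afk_mono x L T a b hG) (afk_loc x L T a b F) (afk_loc x L T a b G)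
  rw [afk_cut x L T a b hab.le hin h0 F, afk_cut x L T a b hab.le hin h0 G, afk_cut x L T a b hab.le hin h0 (fun ω => F ω * G ω),
    dis_E_eq, dis_E_eq, dis_E_eq, div_mul_div_comm, div_le_div_iff₀ (mul_pos hZ hZ) hZ] at h
  have h' : ((sdSys x L T a b).N (K.Holds (sdSys x L T a b)) F * (sdSys x L T a b).N (K.Holds (sdSys x L T a b)) G) * (sdSys x L T a b).Z (K.Holds (sdSys x L T a b))
      ≤ ((sdSys x L T a b).Z (K.Holds (sdSys x L T a b)) * (sdSys x L T a b).N (K.Holds (sdSys x L T a b)) (fun ω => F ω * G ω)) * (sdSys x L T a b).Z (K.Holds (sdSys x L T a b)) := by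
    linarith
  exact le_of_mul_le_mul_right h' hZ

theorem afk_lcy_legal (S : ClSys TV TV) (L H : ℕ) : ClLegal S (lcyK L H) where
  wp := rfl
  wm := rfl
  full := fun y _ hy => by simp [lcyK] at hy
  eq := fun e he => by simp [lcyK] at he

theorem afk_lcy_in (S : ClSys TV TV) (L H : ℕ) : (lcyK L H).In S (sdSites L 0 H) where
  bp := fun u hu => by
    obtain ⟨h01, h2⟩ := rsc_mem_row.1 hu
    exact rsc_mem_sites.2 ⟨h01, by omega, by omega⟩
  bm := fun u hu => by
    obtain ⟨h01, h2⟩ := rsc_mem_row.1 hu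
    exact rsc_mem_sites.2 ⟨h01, by omega, by omega⟩
  eq := fun e he => by simp [lcyK] at he
  op := Finset.empty_subset _
  om := Finset.empty_subset _
  cl := Finset.empty_subset _
  wp := Finset.empty_subset _
  wm := Finset.empty_subset _

/-- a record of cells of the cylinder lives in the cylinder -/
theorem afk_obs_in (x : ℝ) (L H : ℕ) (T : Bool) {Q : Finset TV} (hQ : Q ⊆ sdCells L 0 H) (ω₀ : ClCfg TV TV) :
    (lenObs (sdSys x L T 0 H) (lcyK L H) Q ω₀).In (sdSys x L T 0 H) (sdSites L 0 H) := by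
  have hb := afk_lcy_in (sdSys x L T 0 H) L H
  have hU : Q.biUnion (sdSys x L T 0 H).sv ⊆ sdSites L 0 H := fun v hv => by
    obtain ⟨y, hy, hvy⟩ := Finset.mem_biUnion.1 hv
    exact rsc_cell_sub (hQ hy) hvy
  have hQ' : Q ⊆ (sdSys x L T 0 H).cin (sdSites L 0 H) := by rw [afk_cin]; exact hQ
  exact
    { bp := Finset.union_subset hb.bp ((Finset.filter_subset _ _).trans hU)
      bm := Finset.union_subset hb.bm ((Finset.filter_subset _ _).trans hU)
      eq := hb.eq
      op := Finset.union_subset hb.op ((Finset.filter_subset _ _).trans hQ')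
      om := Finset.union_subset hb.om ((Finset.filter_subset _ _).trans hQ')
      cl := Finset.union_subset hb.cl ((Finset.filter_subset _ _).trans hQ')
      wp := hb.wp
      wm := hb.wm }

theorem exit_ann_fkgr (x : ℝ) (hx1 : 1 / Real.sqrt 2 ≤ x) (hx2 : x ≤ 1) : LcyFkg x := by
  have hx0 : 0 < x := lt_of_lt_of_le (by positivity) hx1
  intro L H T hL hH
  have hH' : (0 : ℤ) < H := by exact_mod_cast hH
  refine ⟨fun F G hF hG => ?_, fun Q ω₀ F G hQ _ _ hF hG => ?_⟩
  · exact afk_core x hx0 hx2 L (by omega) T 0 H hH' (lcyK L H) (afk_lcy_legal _ L H) (afk_lcy_in _ L H) (Finset.Subset.refl _) F G hF hG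
  · exact afk_core x hx0 hx2 L (by omega) T 0 H hH' _ (len_obs_legal _ _ (afk_lcy_legal _ L H) Q ω₀) (afk_obs_in x L H T hQ ω₀)
      Finset.subset_union_left F G hF hG

end Claimed.Agent.R291
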