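import Claimed.Agent.R291.Ann.Seed
import Claimed.Agent.R291.Ann.SeedIso

/-!
# Row 291, Exit/AnnShift : HORIZONTAL TRANSLATIONS OF THE MIXED CYLINDER      CONTRACT A2 (193), A3 (187), A4 <- law side of A4 / A0 (OWNER: helper18 / 5 / 22; typed by helper193 after the withdrawal of `Ann/SeedLaw`)
`SdShift x` (def in `Ann/Seed`): `sdP x L H T s (sdTr (a, 0) E) = sdP x L H T s E`, `3 ≤ L`.      PROVED (18): `sdi_shift` of `Ann/SeedIso`.
-/

set_option autoImplicit false

namespace Claimed.Agent.R291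

theorem exit_ann_shift (x : ℝ) (hx1 : 1 / Real.sqrt 2 ≤ x) (hx2 : x ≤ 1) : SdShift x := sdi_shift x

end Claimed.Agent.R291
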