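import Claimed.Agent.R291.Exit.AnnSE
import Claimed.Agent.R291.Exit.AnnFkgR
import Claimed.Agent.R291.Exit.AnnShift

/-!
# Row 291, Exit/AnnLen : A2 = HORIZONTAL LENGTHENING, AND THE AVERAGED GLUING      CONTRACT A4 (`cy_inst`: fields `rswl`, `glue` of `CyKit`) <- A2 (OWNER helper193)
`SdLen x`, `SdGlue x` (defs in `Defs/Seed`).      PROVED (`Ann/Len`, `Ann/LenCyl`, 0 sorry) from the three inputs `exit_ann_se` (strip estimate, helper20), `exit_ann_fkgr` (FKG under records, helper22), `exit_ann_shift`.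
-/

set_option autoImplicit false

namespace Claimed.Agent.R291

theorem exit_ann_len (x : ℝ) (hx1 : 1 / Real.sqrt 2 ≤ x) (hx2 : x ≤ 1) : SdLen x :=
  lcy_len x (lt_of_lt_of_le (by positivity) hx1) hx2 (exit_ann_se x hx1 hx2) (exit_ann_fkgr x hx1 hx2) (exit_ann_shift x hx1 hx2)

theorem exit_ann_glue (x : ℝ) (hx1 : 1 / Real.sqrt 2 ≤ x) (hx2 : x ≤ 1) : SdGlue x :=
  lcy_glue x (lt_of_lt_of_le (by positivity) hx1) hx2 (exit_ann_se x hx1 hx2) (exit_ann_fkgr x hx1 hx2)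

end Claimed.Agent.R291
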