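import Claimed.Agent.R291.Ann.RswCyl
import Claimed.Agent.R291.Ann.RswRec
import Claimed.Agent.R291.Ann.RswGlue

/-!
# Row 291, Exit/AnnRsw : A3 = THE RSW ESTIMATE (56) ON THE MIXED CYLINDER      CONTRACT A4 (`cyb_in_rsw`, `Ann/CylBridge`) <- A3 (head helper187; typed by helper259 + helper148, order of 24)
`SdRsw x` (def in `Defs/Seed`).      CHAIN, everything compiled:
    `rsg_rsc_glue : RscGlue x`   (`Ann/RswGlue.lean`, helper269: PART II (b) + (c): shift normalisation, trichotomy T1 / T2 / T3, entering the strip, order, join; compiled glue over its typed leaves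
                                   `rsg_patch`, `rsg_ent`, `rsg_P1`, `rsg_P2`, `rsg_est_tip`, `rsg_est_tube`, `rsg_pair`, `rsg_look`, `rsg_layer`, `rsg_F_link`, `rsg_chart`, `rsg_chart_nb`)
      ⟹ `exit_rsc_glue : RscGlue x`      (the link)
      ⟹ `exit_ann_rsw : SdRsw x`         (`rsc_rsw`, `Ann/RswCyl`, helper255: `sdP` is an `RswLaw`;  `rsw_main`, `Ann/Rsw`, PART I, 187 + 259, 0 sorry)
ROOM: circumference `16 r ≤ L` (ruling of 187), vertical room `r` below and above the band (as in `SdRsw`).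
-/

set_option autoImplicit false

namespace Claimed.Agent.R291

open Claims Claims.C0467

/-- PART II: the gluing contract of `rsw_main` on the mixed cylinder -/
theorem exit_rsc_glue (x : ℝ) (hx1 : 1 / Real.sqrt 2 ≤ x) (hx2 : x ≤ 1) : RscGlue x (lt_of_lt_of_le (by positivity) hx1) hx2 :=
  rsg_rsc_glue x hx1 hx2

/-- TEX[annulus:RSW] **(56)** -/
theorem exit_ann_rsw (x : ℝ) (hx1 : 1 / Real.sqrt 2 ≤ x) (hx2 : x ≤ 1) : SdRsw x :=
  rsc_rsw x (lt_of_lt_of_le (by positivity) hx1) hx2 (exit_rsc_glue x hx1 hx2)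

end Claimed.Agent.R291
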