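import Claimed.Agent.R291.Ann.DSeq
import Claimed.Agent.R291.Ann.DBridge

/-!
# Row 291, Exit/AnnD      CONTRACT A7 (121) <- A6 THEOREM D, route D2 (OWNER helper149; bridge helper110; referee 194)
TEX 09-annulus l.911-914 ("its non-exponential-decay branch, selected by the exclusion argument ... qualitative delocalization"); our proof: `origin/helper149:notes/R291/thmD2_149.md`.
SEQUENCE FORM (ruling 121, 15 Oct 06:45Z): along a sequence of scales with ratios in `[3, ρ]` the arm probabilities `η(r, (2ρ+1) r)` cannot decay faster than every power.   (True for every `0 < x ≤ 1`.)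
-/

set_option autoImplicit false

namespace Claimed.Agent.R291

theorem exit_ann_D (x : ℝ) (hx0 : 0 < x) (hx2 : x ≤ 1) (ρ : ℕ) (r : ℕ → ℕ) (hr0 : 1 ≤ r 0)
    (hlo : ∀ k, 3 * r k ≤ r (k + 1)) (hhi : ∀ k, r (k + 1) ≤ ρ * r k)
    (hdec : ∀ A : ℕ, ∃ k0, ∀ k, k0 ≤ k → anEta x (r k) ((2 * ρ + 1) * r k) ≤ (1 / (r k : ℝ)) ^ A) : False := by
  refine ad_exit_seq (q := x ^ 2) (by positivity) (pow_le_one₀ hx0.le hx2) (adbr_fkg x hx0 hx2) hr0 hlo hhi (fun A => ?_)
  obtain ⟨k0, h⟩ := hdec A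
  refine ⟨k0, fun k hk => ?_⟩
  have := h k hk
  rw [adbr_eta] at this
  exact this

end Claimed.Agent.R291
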