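import Claimed.Agent.R291.Ann.Top
import Claimed.Agent.R291.Dis.Planar

/-!
# Row 291, Exit/Circuit      CONTRACT DIS (146: `DisT23` of Dis/Planar, (T23) of sec2_146.md) <- ANN (chief helper121)      TEX[thm:circuit-input]
WEAK FORM (all that DIS consumes): ONE ratio `κ`, `n ≥ n0`, set form.   `anU x n M` = probability, under the law on `Λ_M` with the boundary cells excluded, first spin MINUS on the
layer `latBd Λ_M`, second spin free (`(clInn x Λ_M).P (DamPin (latBd Λ_M) false)`), that no chain of NON-plus cells joins the layer to `Λ_n` (`ClSep … true ∅ ω (latBd Λ_M) Λ_n`).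
The versions with the other sign / the other colour follow from the B-flip (`dis_t23_flip`) and the colour swap.
-/

set_option autoImplicit false

namespace Claimed.Agent.R291

theorem exit_circuit (x : ℝ) (hx1 : 1 / Real.sqrt 2 ≤ x) (hx2 : x ≤ 1) :
    ∃ (κ n0 : ℕ) (c : ℝ), 2 ≤ κ ∧ 0 < c ∧ ∀ n : ℕ, n0 ≤ n →
      c ≤ (clInn x (latBall 0 (κ * n))).P (DamPin (latBd (latBall 0 (κ * n))) false)
        (fun ω => ClSep (clInn x (latBall 0 (κ * n))) true ∅ ω (latBd (latBall 0 (κ * n))) (latBall 0 n)) :=
  ann_top x hx1 hx2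

-- the form consumed by DIS (`DisT23 x true`) is `exit_t23` of `Exit/T23.lean` (one name, one file: rule 6)

end Claimed.Agent.R291
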