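import Claimed.Agent.R291.Dis.Planar
import Claimed.Agent.R291.Exit.Circuit

/-!
# Row 291, Exit/T23 : THEOREM 2.3 (TEX[thm:circuit-input]) AS CONSUMED BY DIS      CONTRACT DIS <- ANN (typed by helper146; OWNER of the proof: unit ANN, chief helper121)
ONE ratio `κ ≥ 2` (any), `n ≥ n₀`, set form: in the hexagon `latBall 0 (κ n)` with the boundary cells excluded (`clInn`), first spin minus on the boundary layer, `W` free,
the invasion of the layer through the cells which are not open-plus misses `latBall 0 n` with probability `≥ c`.   All other ratios, shapes, signs, colours: DIS (`dis_neck`, FKG, flips).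
-/

set_option autoImplicit false

namespace Claimed.Agent.R291

theorem exit_t23 (x : ℝ) (hx1 : 1 / Real.sqrt 2 ≤ x) (hx2 : x ≤ 1) : DisT23 x true := by
  -- glue (helper206): `DisPin s T` and `DamPin T s` are the same predicate, `anU` unfolds to the probability of `DisT23`
  obtain ⟨κ, n0, c, hκ, hc, H⟩ := exit_circuit x hx1 hx2
  exact ⟨κ, n0, c, hκ, hc, fun n hn => H n hn⟩

end Claimed.Agent.R291
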