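import Claimed.Agent.R291.Defs.BdySyn
import Claimed.Agent.R291.Bdy.SynCell

/-!
# Row 291, Exit/BdyPatch      CONTRACT BDY-core (128: ATT = R5) <- SYN (OWNER of the proof: helper128, Bdy/SynCell.lean; consumes DIS: LIFT, ORD, STACK, LBL; PLA: Timar)
TEX[lem:attachment] l.300-345 (the mean `-1/2` at a clean patch).      HEIGHT-ONLY FORM.
GENERAL POCKET `P` (FIT A8 of helper123), `latBall c R ⊆ A ∪ P`, `c ∉ A`, the far part `(A ∪ P)ᶜ` is connected: inside `latBall c R` there is NO `B`-pin.   Every observable `ψ` of the heights in `latBall c r` which is ODD under `h ↦ -1 - h` has a small mean: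
`(E ψ)^2 ≤ C (r/R)^α E ψ^2`.
PROOF.  First colour `W` (pins `+` off `A`, favourable), second colour: equalities + 1 label on the complement of `A ∪ P` (connected).   `G := Sep_+(V \ latBall c R, latBall c r)`, `P(Gᶜ) ≤ 2 C (r/R)^α` (STACK, LBL).
On `G`: `I` := component of `c` in `V \ Inv_+`; straddling cells are open plus, the layer is connected, meets `Aᶜ`: pair `{-1,0}`.   The map `h ↦ -1 - h` on `I`, identity off `I`, same statuses, is a weight preserving involution of
the augmented law (a cell inside `I`: both constancies are kept; a straddling cell is open: weight `q` whatever `B`); it keeps `(W, τ)`, hence `G` and `I`.   So `E[ψ 1_G] = 0` and `|E ψ| = |E ψ 1_{Gᶜ}| ≤ (E ψ^2)^(1/2) P(Gᶜ)^(1/2)`.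
PROVED (helper128, Bdy/SynCell.lean `bsc_main`, 07:40Z) from the dictionary `bsb_bridge`, `bsb_spec` (Bdy/SynBr.lean, helper89), the full-collar flip `swiSw` (139), `dis_stack`, `dis_lbl_one`, `dis_feas`, `exit_t23`.   (FULL collar instead of the component `I`: no Timar.)
-/

set_option autoImplicit false

namespace Claimed.Agent.R291

open Claims Claims.C0467

theorem exit_bdy_patch (x : ℝ) (hx1 : 1 / Real.sqrt 2 ≤ x) (hx2 : x ≤ 1) :
    ∃ (C α : ℝ), 0 < C ∧ 0 < α ∧ ∀ (A P : Finset TV) (c : TV) (r R : ℕ) (ψ : (TV → ℤ) → ℝ),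
      MomCo A → MomCo (A ∪ P) → Disjoint P A → latBall c R ⊆ A ∪ P → c ∉ A → 1 ≤ r → r ≤ R →
      HtLoc (latBall c r) ψ → (∀ h, ψ (fun u => -1 - h u) = - ψ h) →
      (bdySynE x A P ψ) ^ 2 ≤ C * ((r : ℝ) / R) ^ α * bdySynE x A P (fun h => ψ h ^ 2) :=
  bsc_main x hx1 hx2

end Claimed.Agent.R291
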