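import Claimed.Agent.R291.Defs.Mom
import Claimed.Agent.R291.Dis.First

/-!
# Row 291, Exit/DisFirst      CONTRACT MOM <- DIS (typed by helper122; PROVED by helper139 in Dis/First.lean, no sorry)      TEX[lem:height-order] second half ("flat loops"), loop free
FIRST-DOMAIN DECOMPOSITION of a flat problem `(F, t)`, `F` hole-free.   `momC0 F t h` = `t`-cluster of the complement, `momD F t h z` = component of `z` off it.
(geo)  either `z` is in the cluster, or the first domain is a finite `D ⊆ F`, connected, hole-free, `latInt D` hole-free, `h = t` on `latOut D`, `h = t + e` on `latBd D` for ONE `e = ±1`  (Timar: `tsc_plane_timar`).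
(law)  `φ` reads `h` on `D` only, `ψ` off `D` only:   `E[1{first domain = D, sign e} φ ψ] = 1/2 E[1{first domain = D} ψ] * E_{latInt D, t+e}[φ]`.
       (bijection `{first domain = D} = Out × {±1} × htCfg (latInt D) 0`; the weights multiply; or DLR of Ht/Basic on `latInt D` + the reflection `h ↦ 2t - h` on `D`.)
This replaces: level loops, "surrounding", fair independent orientations, exposing loops from outside, empty-exterior law.
-/

set_option autoImplicit false

namespace Claimed.Agent.R291

open Claims Claims.C0467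

theorem exit_dis_first_geo (F : Finset TV) (t : ℤ) (z : TV) (h : TV → ℤ) (hF : MomCo F) (hh : h ∈ htCfg F (fun _ => t)) :
    z ∈ momC0 F t h ∨ ∃ (D : Finset TV) (e : ℤ), (e = 1 ∨ e = -1) ∧ MomFst F t z D e h ∧ D ⊆ F ∧ TscConn tscG (D : Set TV) ∧
      MomCo D ∧ MomCo (latInt D) ∧ ∀ v ∈ latOut D, h v = t := by
  have hadm := ht_mem_cfg.1 hh
  by_cases hz : z ∈ momC0 F t h
  · exact Or.inl hz
  · right
    obtain ⟨D, hd⟩ := mne_dom_exists hadm.1 hz
    have hco := hd.co hF
    rcases hd.eps hadm hF with e | e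
    · exact ⟨D, 1, Or.inl rfl, (mne_fst_iff hadm.1 1).2 ⟨hd, e⟩, hd.sub, hd.conn, hco, mne_int_co hco,
        fun v hv => hd.out_val hadm.1 hv⟩
    · exact ⟨D, -1, Or.inr rfl, (mne_fst_iff hadm.1 (-1)).2 ⟨hd, fun u hu => by rw [e u hu]; ring⟩, hd.sub, hd.conn, hco,
        mne_int_co hco, fun v hv => hd.out_val hadm.1 hv⟩

open Classical in
theorem exit_dis_first (x : ℝ) (hx0 : 0 < x) (F : Finset TV) (t : ℤ) (z : TV) (D : Finset TV) (e : ℤ) (hF : MomCo F)
    (he : e = 1 ∨ e = -1) (φ ψ : (TV → ℤ) → ℝ) (hφ : HtLoc D φ) (hψ : HtOff D ψ) :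
    htE x F (fun _ => t) (fun h => if MomFst F t z D e h then φ h * ψ h else 0) =
      1 / 2 * htE x F (fun _ => t) (fun h => if ∃ e', MomFst F t z D e' h then ψ h else 0) *
        htE x (latInt D) (fun _ => t + e) φ := by
  have e1 : htE x F (fun _ => t) (fun h => if MomFst F t z D e h then φ h * ψ h else 0)
      = htE x F (fun _ => t) (fun h => mneIe F t z D e h * (ψ h * φ h)) := by
    refine ht_E_congr x F _ fun h hadm => ?_
    unfold mneIe
    by_cases hc : MomFst F t z D e h
    · rw [if_pos hc, if_pos ((mne_fst_iff hadm.1 e).1 hc)]; ring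
    · rw [if_neg hc, if_neg (fun k => hc ((mne_fst_iff hadm.1 e).2 k))]; ring
  have e2 : htE x F (fun _ => t) (fun h => if ∃ e', MomFst F t z D e' h then ψ h else 0)
      = htE x F (fun _ => t) (fun h => mneI F t z D h * ψ h) := by
    refine ht_E_congr x F _ fun h hadm => ?_
    unfold mneI
    by_cases hc : ∃ e', MomFst F t z D e' h
    · rw [if_pos hc, if_pos ((mne_fst_ex_iff hF hadm).1 hc)]; ring
    · rw [if_neg hc, if_neg (fun k => hc ((mne_fst_ex_iff hF hadm).2 k))]; ring
  rw [e1, e2, mne_R2e hx0 e φ ψ hφ hψ, mne_half x hF he ψ hψ]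

end Claimed.Agent.R291
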