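import Claimed.Agent.R291.Defs.Mom
import Claimed.Agent.R291.Dis.Obstr

/-!
# Row 291, Exit/DisObstr      CONTRACT MOM <- DIS (typed by helper122; OWNER of the proof: unit DIS, head helper146)      TEX[lem:shell-moments] l.48-112 (the OBSTRUCTION)
In a flat problem on a hole-free `F` which does not contain `latBall z (5 r)`, the ordered pair of walls around `latBall z r`
(a hole-free domain `D ⊆ F` all of whose leaving edges are W-walls with `B = +`, containing a domain `D' ⊇ latBall z r` all of whose leaving edges are B-walls) has probability `≤ 1 - κ`.
PROOF (DIS language; note sec3_122.md (b) D3): on the event every cell crossing `D` has `W` nonconstant, so it is open-plus: `Cut_+(D)`.  Hole-free plus-good sets between `latBall z r` and `F` are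
stable under FILLED union => outermost one `I`; `{I = I0}` is Out(I0)-measurable; inside = `cutE x I0 +` = free ambient law on `latBall z (20 r)` conditioned on these open-plus cells (ORD-C: favourable);
`p` := a site off `I0` nearest to `z` (`latDist z p ≤ 5 r`); chain of `≤ 5/ε + 2` plus circuits of radii `(ε r, 2 ε r)` from `p` to `latBall z r` (PRIM + FKG): probability `≥ κ`.
The circuit around `p` meets the complement of `I0` (connected, infinite, contains `p`); consecutive circuits meet (CONN); so a B-plus site path inside `I0` joins `latBd I0` to `latBall z r`: it would cross the B-wall.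
-/

set_option autoImplicit false

namespace Claimed.Agent.R291

open Claims Claims.C0467

theorem exit_dis_obstr (x : ℝ) (hx1 : 1 / Real.sqrt 2 ≤ x) (hx2 : x ≤ 1) :
    ∃ (κ : ℝ) (r0 : ℕ), 0 < κ ∧ ∀ (F : Finset TV) (t : ℤ) (z : TV) (r : ℕ),
      MomCo F → r0 ≤ r → ¬ latBall z (5 * r) ⊆ F →
      htP x F (fun _ => t) (MomBad F z r) ≤ 1 - κ :=
  -- FILLED (helper164 height side `Dis/Obstr.lean`, helper133 cell side `Dis/ObstrCell.lean`)
  dob_exit x hx1 hx2

end Claimed.Agent.R291
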