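import Claimed.Agent.R291.Defs.Mom
import Claimed.Agent.R291.Dis.StackHt

/-!
# Row 291, Exit/DisStack      CONTRACT MOM <- DIS (typed by helper122; OWNER of the proof: unit DIS, head helper146)      TEX (moments:arm), (discrete:stack)
Stack of circuits in a flat problem: if `latBall z r2 ⊆ F` then, up to probability `C (r1/r2)^α`, the annulus `latBall z r2 \ latBall z r1` contains a CONNECTED set of sites
with constant first Gray spin which blocks every lattice path across the annulus.   Second colour: the same statement at `t + 1` (`W(k) = B(k+1)`).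
PROVED (helper50, Dis/StackHt.lean `dsh_main`) from `exit_t23`, `dis_stack`, `dis_lift`, `dis_lbl_one`, `dis_amb_disk/ball`.
PROOF (DIS): (LIFT) flat law = cell law with pins `B`, equalities `E_0` + label on the skeleton (label cost exactly 1/2, independent of `(B,τ)`), (STACK) in `latBall z (r2 - 2)`, (CONN)/Timar for the connected layer.
-/

set_option autoImplicit false

namespace Claimed.Agent.R291

open Claims Claims.C0467

theorem exit_dis_stack (x : ℝ) (hx1 : 1 / Real.sqrt 2 ≤ x) (hx2 : x ≤ 1) :
    ∃ (C α : ℝ), 0 < C ∧ 0 < α ∧ ∀ (F : Finset TV) (t : ℤ) (z : TV) (r1 r2 : ℕ),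
      MomCo F → 1 ≤ r1 → r1 ≤ r2 → latBall z r2 ⊆ F →
      htP x F (fun _ => t) (fun h => ¬ MomCirc z r1 r2 h) ≤ C * ((r1 : ℝ) / r2) ^ α :=
  dsh_main x hx1 hx2

end Claimed.Agent.R291
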