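import Claimed.Agent.R291.Defs.Mom
import Claimed.Agent.R291.Mom.Shell

/-!
# Row 291, Exit/MomCov      OWNER of the proof: helper122 (unit MOM)      TEX[moments:covariance] (moments:covariance-bound), TEX[lem:shell-moments]
Logarithmic covariance bound of a flat (zero trace) problem on a hole-free free set `F`.  `n` = any radius with `latBall z n ⊄ F`.
No centre `z0`, no `c0`: only `latBall z (latDist z w) ⊆ F`.
-/

set_option autoImplicit false

namespace Claimed.Agent.R291

open Claims Claims.C0467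

theorem exit_mom_cov (x : ℝ) (hx1 : 1 / Real.sqrt 2 ≤ x) (hx2 : x ≤ 1) :
    ∃ C : ℝ, 0 < C ∧ ∀ (F : Finset TV) (z w : TV) (n : ℕ),
      MomCo F → latBall z (latDist z w) ⊆ F → ¬ latBall z n ⊆ F →
      0 ≤ htE x F 0 (fun h => (h z : ℝ) * (h w : ℝ)) ∧
      htE x F 0 (fun h => (h z : ℝ) * (h w : ℝ)) ≤ C * (1 + Real.log ((n : ℝ) / max 1 (latDist z w : ℝ))) :=
  mom_cov x hx1 hx2

end Claimed.Agent.R291
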