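import Claimed.Agent.R291.Defs.Mom
import Claimed.Agent.R291.Exit.MomCov
import Claimed.Agent.R291.Mom.Smear

/-!
# Row 291, Exit/MomSmear      OWNER of the proof: helper122 (unit MOM); GLUE FILLED by helper164 (Mom/Smear.lean: `mom_smear_exit`, from `exit_mom_cov`)      TEX[prop:smearing] (moments:smearing-bound)
Smearing with bounded boundary values, all integer moments.  `F` = FREE set (hole-free), `b` = boundary function, `|b| ≤ K` on `latOut F`;
`a` = radius (hex norm), `latBall z0 (3 a) ⊆ F` (paper: `a ≤ c0 n`, here `c0 = 1/3`), `n` = any radius with `latBall z0 n ⊄ F` (paper: `n` = distance to the trace).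
Consumers: PIN l.179, 201, 405, 878;  BDY l.721, 793;  LIM l.31, 105 ([SM], [SM-t]).     The frozen law is `F := latInt (F n)`, `b := 0`.
-/

set_option autoImplicit false

namespace Claimed.Agent.R291

open Claims Claims.C0467

theorem exit_mom_smear (x : ℝ) (hx1 : 1 / Real.sqrt 2 ≤ x) (hx2 : x ≤ 1) (p : ℕ) :
    ∃ C : ℝ, 0 < C ∧ ∀ (F : Finset TV) (b : TV → ℤ) (K : ℝ) (z0 : TV) (a n : ℕ) (A : ℝ) (w : TV →₀ ℝ),
      MomCo F → (∀ u ∈ latOut F, |(b u : ℝ)| ≤ K) → 1 ≤ a → latBall z0 (3 * a) ⊆ F → ¬ latBall z0 n ⊆ F →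
      MomSm z0 a A w →
      htE x F b (fun h => |latArr w h| ^ p) ≤ (C * A * (1 + K + Real.sqrt (Real.log ((n : ℝ) / a)))) ^ p :=
  mom_smear_exit (lt_of_lt_of_le (by positivity) hx1) hx2 (exit_mom_cov x hx1 hx2) p

end Claimed.Agent.R291
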