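import Claimed.Agent.R291.Dis.SwPl

/-!
# Row 291, Exit/DisSwitch      CONTRACT MOM <- DIS (typed by helper122; OWNER of the proof: unit DIS, helper139 SW)      TEX[lem:collar-switch] + TEX[lem:buffer-circuits], as used in TEX[lem:nondegeneracy]
PROTECTED SWITCH, height-only form.  `M h h'` := total augmented weight of the configurations `(h, statuses)` in the event "outer good B-plus cut in `latBall z1 (3R) \ latBall z1 (2R)`, inner good
B-minus cut in `latBall z1 (2R) \ latBall z1 R`" which the switch sends to `(h', same statuses)`.   `M` is symmetric (weight preserving involution), sub-stochastic w.r.t. the height weight (marginal),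
carried by pairs which agree off `latBall z1 (C1 R)` and differ by ONE constant `k`, `k % 8 = 4`, on `latBall z1 R`, and has total mass `≥ c2 Z`.
PROVED (helper139): `swi_main` of Dis/SwPl.lean, from `dis_prim` (both signs) + LIFT + label cost + the full-collar flip of Dis/Sw.lean.
v2 (06:15Z, asked by helper139 = full-collar flip, accepted by helper122): the ratio `C1` is existential, the shift is `4 * odd`.
-/

set_option autoImplicit false

namespace Claimed.Agent.R291

open Claims Claims.C0467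

theorem exit_dis_switch (x : ℝ) (hx1 : 1 / Real.sqrt 2 ≤ x) (hx2 : x ≤ 1) :
    ∃ (c2 : ℝ) (R0 C0 C1 : ℕ), 0 < c2 ∧ ∀ (F : Finset TV) (z1 : TV) (R : ℕ),
      MomCo F → R0 ≤ R → latBall z1 (C0 * R) ⊆ F →
      ∃ M : (TV → ℤ) → (TV → ℤ) → ℝ, (∀ h h', 0 ≤ M h h') ∧ (∀ h h', M h h' = M h' h) ∧
        (∀ h ∈ htCfg F 0, ∑ h' ∈ htCfg F 0, M h h' ≤ htWt x F h) ∧
        (∀ h h', M h h' ≠ 0 → (∀ u, u ∉ latBall z1 (C1 * R) → h' u = h u) ∧
          ∃ k : ℤ, k % 8 = 4 ∧ ∀ u ∈ latBall z1 R, h' u = h u + k) ∧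
        c2 * htZ x F 0 ≤ ∑ h ∈ htCfg F 0, ∑ h' ∈ htCfg F 0, M h h' :=
  swi_main x hx1 hx2

end Claimed.Agent.R291
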