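import Claimed.Agent.R291.Bdy.Strip

/-!
# Row 291, Exit/BdyStrip      CONTRACT BDY-core (173: R2) <- SYN (PROVED by helper50 in Bdy/Strip.lean, `bsp_main`; consumes DIS: LIFT, ORD, STACK in product form, LBL; PLA: Timar)
TEX[prop:boundary-arch] l.560-600 (separators in the strips), TEX[lem:synthetic-trace], (discrete:stack).      HEIGHT-ONLY FORM.
GENERAL POCKET `P` (FIT A8 of helper123: `MomCo (A ∪ latBall c R)` is not satisfiable for domains with fjords): `latBall c R ⊆ A ∪ P ∪ Q1`, the far part `(A ∪ P ∪ Q1)ᶜ` is connected.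
Inside `latBall c R` the only `B`-pins sit on the connected set `Q1` (the WINDOW, where the true trace may be `-1`), which lies in the hole of every slot.
Slots = annuli `latBall c (κ r) \ latBall c r`, `r ∈ T`, pairwise separated by the factor `L`.    Up to the constant `C` (two labels) the slots FAIL independently:
`P(every slot of T is crossed by a walk of sites of A of height ≤ -2) ≤ C (1 - a1)^|T|`.
PROOF.  First colour `W`: pins `W = +` on the complement of `A` (favourable), second colour: equalities on `Q1` and on the complement of `A ∪ P ∪ Q1` (both connected) + 2 labels (cost `≤ 4`, LBL).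
(STACK-T) `P(no Sep_+ in all slots of T) ≤ (1 - a1)^|T|` (no equality, no adverse pin in the slots).   (PRE) on `Sep_+(off latBall c (κ r), latBall c r)`: `X = Inv_+`, `D` = component of the ball off `X`;
the layer `{d ∈ D, d ~ X}` is connected (`tsc_timar_out`), `W = +` on it (straddling cells are open plus), it meets the connected set `Aᶜ ∋ c` (`tsc_timar_meets`), where the pair is `{-1,0}`: so `h ≥ -1` on the layer,
and every walk across the slot meets the layer.
-/

set_option autoImplicit false

namespace Claimed.Agent.R291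

open Claims Claims.C0467

theorem exit_bdy_strip (x : ℝ) (hx1 : 1 / Real.sqrt 2 ≤ x) (hx2 : x ≤ 1) :
    ∃ (C a1 : ℝ) (κ L ρ0 : ℕ), 0 < C ∧ 0 < a1 ∧ a1 ≤ 1 ∧ ∀ (A P Q1 : Finset TV) (c : TV) (R : ℕ) (T : Finset ℕ),
      MomCo A → MomCo (A ∪ P ∪ Q1) → TscConn tscG (Q1 : Set TV) → Disjoint P A → Disjoint Q1 A → Disjoint P Q1 →
      latBall c R ⊆ A ∪ P ∪ Q1 → c ∉ A →
      (∀ r ∈ T, ρ0 ≤ r ∧ Q1 ⊆ latBall c r ∧ κ * r ≤ R) → (∀ r ∈ T, ∀ r' ∈ T, r < r' → L * r ≤ r') →
      bdySynP x A P
        (fun h => ∀ r ∈ T, BdyLoX A (-2) (latBall c r : Set TV) ((latBall c (κ * r) : Set TV)ᶜ) h) ≤ C * (1 - a1) ^ T.card :=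
  bsp_main x hx1 hx2

end Claimed.Agent.R291
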