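import Claimed.Agent.R291.Defs.BdyGeo
import Claimed.Agent.R291.Bdy.GeoArch
import Claimed.Agent.R291.Bdy.GeoH
import Claimed.Agent.R291.Bdy.GeoK

/-!
# Row 291, Exit/BdyGeo      CONTRACT BDY-core (173: Upg, Multi, Top) <- GEOMETRY (OWNERS of the proof: helper25, helper119, helper217; file Bdy/GeoArch.lean)
TEX[prop:boundary-arch] l.540-560, 620-668: radii, boxes, tubes, patches, exterior routes.      Statement = existence of `BdyPack` (Defs/BdyGeo) at every fine mesh.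
ORDER: the constants `K1 Lq n0 ms N` (they come from the probabilistic exits) and `p`, `R` first; then the inner radius `r`; then the mesh.
SATISFIABILITY (checked by 173, see Defs/BdyGeo header and sec6c_173.md): scales `ρ_j`, `L = Lq ρ`, tube on the hexagonal sphere of radius `4 L`, `r1 = 2 L`, `r2 = 6 L`, `r0 ~ r1 / ms`, `b0 ~ r0 / 2`, `a ~ b0 / 3`, `r3 ~ ms r2`, `b3 = r3 + 1..2 r3`;
next block `a' ≥ 3 b3 + 3`.   All ratios are fixed, so `r = R' / ratio^N`, `R' = min (R, chart radius)/C`; the band `σ`-lemma `dc2_band` is used with `σ ≤ 1/10` at all the scales between `a_0` and `Rtop`.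
-/

set_option autoImplicit false

namespace Claimed.Agent.R291

open Claims Claims.C0467 Filter

theorem exit_bdy_geo (D : Set (ℝ × ℝ)) (hD : IsC2JordanDomain D) (δ : ℕ → ℝ) (F : ℕ → Finset (ℤ × ℤ)) (hF : IsInsideApprox D δ F)
    (p : ℝ × ℝ) (hp : p ∈ frontier D) (R : ℝ) (hR : 0 < R) (K1 Lq n0 ms N : ℕ) (hK1 : 3 ≤ K1) (hLq : 4 * K1 ≤ Lq) (hms : 2 ≤ ms) :
    ∃ r : ℝ, 0 < r ∧ r < R ∧ ∀ᶠ n in atTop, ∃ (c : TV) (k : ℕ) (Sin Sout : Finset TV) (Rtop : ℕ) (B : ℕ → BdyBlkD),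
      BdyPack (δ n) p r R (latInt (F n)) K1 Lq n0 ms N c k Sin Sout Rtop B :=
  bgd_main_of (fun c d hd => bgh_exists_k hd c) D hD δ F hF p hp R hR K1 Lq n0 ms N hK1 hLq hms
    (fun _ _ _ _ _ _ _ _ _ _ _ _ X _ _ S ha hn0 => by
      obtain ⟨zs, qL, qR, aL, aR, PL, PR, h⟩ := bgk_block X S ha hn0 hK1 hLq hms
      exact ⟨_, rfl, rfl, h⟩)

end Claimed.Agent.R291
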