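import Claimed.Agent.R291.Ann.RenCor

/-!
# Row 291, Exit/AnnCor      CONTRACT A5-B3 (264) <- A5-B6 THE CORRIDOR (OWNER helper144, `Ann/RenCor.lean`)
Statement = `RnCor` of Defs/Ren: both signs, both orientations, ANY finite domain inside a band of height `r`, ANY legal history on the two far sides of a window of length `6 r`.
PROVED (axioms: propext, Classical.choice, Quot.sound): `rnc_main` = straight instance `glb_three` (191) of `gl_three` (55) + ports `prc_two_amb` (116) + `dis_order` + J1 `pls_rect` (112) + flip, swap, shift.
-/

set_option autoImplicit false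

namespace Claimed.Agent.R291

theorem exit_ann_cor (x : ℝ) (hx1 : 1 / Real.sqrt 2 ≤ x) (hx2 : x ≤ 1) : RnCor x := rnc_main x hx1 hx2

end Claimed.Agent.R291
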