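import Claimed.Agent.R291.Ann.CylBridge

/-!
# Row 291, Exit/AnnCyl : (CYL) = THE MIXED-CYLINDER SEED ESTIMATE      CONTRACT A5 <- A4 (typed by helper83; TEX[annulus:seed] + TEX[annulus:winding] + TEX[annulus:slide])
`SdCyl x`: for every `C`, `ε > 0` there are `δ > 0`, `H₀`: on the mixed cylinder of height `H ≥ H₀` and circumference `H ≤ L ≤ C H`, for BOTH cell classes, every band of index rows `c..d` with `c ≥ 0.7 H`,
`d - c ≥ ε H`, `d ≤ H - 4` is blocked by open-plus cells (no vertical crossing by cells which are not open-plus) with probability `≥ δ`.   `SdCylM x`: mirror statement, open-minus cells, `3 ≤ c`, `d ≤ 0.3 H - 1`.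
Vocabulary: `Defs/Seed` (`sdP`, `SdBlk`, `SdCyl`, `SdCylM`).      PROOF: `cy_to_sd` (`Ann/CylMain`, 83) applied to the instance `cyb_kit` + the bridge `cyb_P_Blk` (`Ann/CylBridge`).
-/

set_option autoImplicit false

namespace Claimed.Agent.R291

theorem exit_ann_cyl (x : ℝ) (hx1 : 1 / Real.sqrt 2 ≤ x) (hx2 : x ≤ 1) : SdCyl x ∧ SdCylM x :=
  cy_to_sd x (cyb_kit x hx1 hx2) fun _ _ T s c d hL hH => cyb_P_Blk x hL hH T s c d

end Claimed.Agent.R291
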