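import Claimed.Agent.R291.Ann.LenGeo
import Claimed.Agent.R291.Ann.LenLSS

/-!
# Row 291, Exit/AnnLSS : THE STRAIGHT SHORT CROSSING ON THE MIXED CYLINDER      CONTRACT A2 (`exit_ann_se`, 193 + 20) <- A1 (OWNER: 55 with 191, 164, 267; typed by helper193)
`LcyLSS x` (def in `Ann/LenGeo`) = `LseLSS` of `Ann/LenSE` (20) for `S = sdSys x L T 0 H`, `K = lcyK L H`, chart `lcyG L H w k (k + r - 1)`, box `[a, b] × [k, k + r - 1]` (index coordinates, both classes),
`3.5 r ≤ b - a ≤ 5 r`, `10 r ≤ L`, vertical room `r / 4`, with ONE constant `c > 0` and one `r₀`: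
   `c * Z(h3) ≤ N(h3; no left-right walk of non-plus cells of the box)`,
`h3 = lseH3` = mixed b.c. + (top row and bottom row of CELLS of the box open-plus, all their sites plus) + (the other sites of the box which lie in an outer cell: minus) + (outer cells touching the box, not touching the two rows: open-minus).
It depends on the box only (no record).      Paper: TEX[annulus:straight-short] + three places (`gl_three`), `Glue/Box` (191), `Glue/Enter` (164).
-/

set_option autoImplicit false

namespace Claimed.Agent.R291

theorem exit_ann_lss (x : ℝ) (hx1 : 1 / Real.sqrt 2 ≤ x) (hx2 : x ≤ 1) : LcyLSS x :=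
  lls_main x hx1 hx2

end Claimed.Agent.R291
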