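import Claimed.Agent.R291.Ann.LenGeo
import Claimed.Agent.R291.Ann.RswCyl

/-!
# Row 291, Exit/AnnOrd : ORDER OF THE HISTORIES ON THE MIXED CYLINDER      CONTRACT A2 (`exit_ann_se`, 193 + 20) <- A0 (OWNER helper20, `Ann/LenOrd`; typed by helper193)
`LcyOrd x` (def in `Ann/LenGeo`) : `LseOrd (sdSys x L T 0 H) (lcyK L H)` = `dis_order` between the legal histories which contain the mixed pins (the cylinder is NOT a `ClDisk`).
-/

set_option autoImplicit false

namespace Claimed.Agent.R291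

/-- PROVED by helper168: `rsc_order` of helper255 (`Ann/RswCyl` §4c: the cylinder is the minus cut law of the capped disc `rscAmb`). -/
theorem exit_ann_ord (x : ℝ) (hx1 : 1 / Real.sqrt 2 ≤ x) (hx2 : x ≤ 1) : LcyOrd x := by
  have hx0 : 0 < x := lt_of_lt_of_le (by positivity) hx1
  intro L H T hL hH K₁ K₂ h₁ h₂ _ m₁ _ m₂ hle F hF
  exact rsc_order x hx0 hx2 L (by omega) T 0 H (by exact_mod_cast hH) K₁ K₂ h₁ h₂ m₁ m₂ hle F hF

end Claimed.Agent.R291
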