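import Claimed.Agent.R291.Defs.Ren
import Claimed.Agent.R291.Ann.RenPush
import Claimed.Agent.R291.Ann.RenHP

/-!
# Row 291, Exit/AnnPush1      CONTRACT A5-B4 (115), A5-B3 (264) <- A5-B2 PUSHING (OWNER helper92, `Ann/RenPush.lean`)
Statement = `RnPush1` of Defs/Ren (typed by its producer): (SEP) for ONE box, both signs, every legal history inside the box, every domain `Bx(u,R) ⊆ D ⊆ Bx(u,C0 R)`.
COMPILED GLUE (wired by helper160, FIT): `rnp_push1` (B2, helper92, `Ann/RenPush`, 0 sorry) applied to `rh_main : RnHP x` (B5, helper278, `Ann/RenHP`, from `exit_ann_cyl`).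
-/

set_option autoImplicit false

namespace Claimed.Agent.R291

theorem exit_ann_push1 (x : ℝ) (hx1 : 1 / Real.sqrt 2 ≤ x) (hx2 : x ≤ 1) : RnPush1 x :=
  rnp_push1 x (lt_of_lt_of_le (by positivity) hx1) hx2 (rh_main x hx1 hx2)

end Claimed.Agent.R291
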