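import Claimed.Agent.R291.Defs.Ren
import Claimed.Agent.R291.Ann.RenSep
import Claimed.Agent.R291.Ann.RenHP
import Claimed.Agent.R291.Exit.AnnCor

/-!
# Row 291, Exit/AnnSep2      CONTRACT A5-B4 (115) <- A5-B3 SEPARATION OF TWO ALIGNED BOXES (OWNER helper264, `Ann/RenSep.lean`)
Statement = `RnSep2` of Defs/Ren (typed by the consumer, helper115; plan in its docstring) = Step 2 of (REC).
COMPILED GLUE (helper264): `rns_sep2` (B3, `Ann/RenSep`, 0 sorry, axiom clean) applied to `rh_main : RnHP x` (B5, helper278, `Ann/RenHP`) and `exit_ann_cor : RnCor x` (B6, helper144, `Exit/AnnCor`).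
-/

set_option autoImplicit false

namespace Claimed.Agent.R291

theorem exit_ann_sep2 (x : ℝ) (hx1 : 1 / Real.sqrt 2 ≤ x) (hx2 : x ≤ 1) : RnSep2 x :=
  rns_sep2 x (lt_of_lt_of_le (by positivity) hx1) hx2 (rh_main x hx1 hx2) (exit_ann_cor x hx1 hx2)

end Claimed.Agent.R291
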