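import Claimed.Agent.R291.Defs.Ann
import Claimed.Agent.R291.Ann.RenTop
import Claimed.Agent.R291.Exit.AnnPush1
import Claimed.Agent.R291.Exit.AnnSep2

/-!
# Row 291, Exit/AnnRen      CONTRACT A7 (121) <- A5 RENORMALISATION (head architect helper115; science 144, 12, 278; adversary 38)
TEX 09-annulus l.905-916 ("Pushing gives the renormalization inequality (23)"); our proof: `origin/helper144:notes/R291/ann_A5_144.md` Sec. 1-6, design (HP) of helper12.
RULING 121, 15 Oct 06:45Z (after the alarm of 278 / 12 / 144: (SEP) is proved for ALIGNED boxes only, so the quadratic recursion of `η` is NOT proved; it is NOT needed):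
the ONLY exit of A5 is (REC), the recursion of `U` for ALL `N` in the window `[ρ n, ρ² n]` (boxes `z± = (± N/2, 0)`: aligned; (SEP1), (FAV) are uniform in `g`, `M`).
`exit_ann_ren_eta`, (FAR1), (LIN) are cancelled.
COMPILED GLUE (B4, helper115, `Ann/RenTop.lean`, 0 sorry): `rnt_rec : RnPush1 x → RnSep2 x → (REC)`; open = `exit_ann_push1` (B2, 92), `exit_ann_sep2` (B3, 264).
-/

set_option autoImplicit false

namespace Claimed.Agent.R291

theorem exit_ann_ren_U (x : ℝ) (hx1 : 1 / Real.sqrt 2 ≤ x) (hx2 : x ≤ 1) :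
    ∃ K0 : ℕ, ∀ K : ℕ, K0 ≤ K → ∃ (ρ : ℕ) (C : ℝ) (n0 : ℕ), 2 ≤ ρ ∧ 0 < C ∧
      ∀ n N : ℕ, n0 ≤ n → ρ * n ≤ N → N ≤ ρ ^ 2 * n → anU x N (2 * K * N) ≤ C * anU x n (2 * K * n) ^ 2 :=
  rnt_rec x hx1 hx2 (exit_ann_push1 x hx1 hx2) (exit_ann_sep2 x hx1 hx2)

end Claimed.Agent.R291
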