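import Claimed.Agent.R291.Exit.AnnLSS
import Claimed.Agent.R291.Exit.AnnOrd

/-!
# Row 291, Exit/AnnSE : (SE) = THE STRIP ESTIMATE ON THE MIXED CYLINDER      CONTRACT A2 (193: `SdLen`, `SdGlue`) <- adapter of helper20 (`Ann/LenSE`, 0 sorry) + geometry of helper193 (`Ann/LenGeo`)
`LcySE x` (def in `Ann/LenCyl`): boxes `[a, b] × [k, k + r - 1]` (index coordinates, both classes), `3.5 r ≤ b - a ≤ 5 r`, vertical room `r / 4`, `10 r ≤ L`; given the FULL record `lenRec` of the two explorations INSIDE the box
(clusters of the non-plus cells of the top row and of the bottom row, all cells looked at with all their first spins), on the event `H⁺(box)`, with conditional probability `≥ c`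
no left-right walk of non-plus cells of the box avoids the two clusters (increasing event).
PROVED from `exit_ann_lss` (straight short crossing, A1) and `exit_ann_ord` (order of histories, 20) by `lge_se` = `lse_main` + `lge_geo` + `lge_ports`.
-/

set_option autoImplicit false

namespace Claimed.Agent.R291

theorem exit_ann_se (x : ℝ) (hx1 : 1 / Real.sqrt 2 ≤ x) (hx2 : x ≤ 1) : LcySE x :=
  lge_se x (lt_of_lt_of_le (by positivity) hx1) hx2 (exit_ann_lss x hx1 hx2) (exit_ann_ord x hx1 hx2)

end Claimed.Agent.R291
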