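import Claimed.Agent.R291.Defs.Bdy
import Claimed.Agent.R291.Bdy.Multi

/-!
# Row 291, Exit/BdyArch : [ARCH] boundary arches in blocking form      (PRODUCERS: unit BDY, helper128 (head) / helper173; consumer helper176: Bdy/Mom = [BD], [COL])
FILLED (181): `bmu_arch` of Bdy/Multi.lean = `bdy_upg` (205) + `bpr_main` (86) + `exit_bdy_geo` (25, 119, 217) + strong Markov over the retained regions.
TEX[prop:boundary-arch].  Statement = `BdyArch` of Defs/Bdy (typed by the consumer, helper176).  The producers replace the `sorry` by glue (import your unit here).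
It follows from 128's form (sec6_128.md sec.0: `ρ(x,ε)`, `R0(D)`, all `r ≤ ρ R`, walks of FREE sites) applied at radii `(2r, R/2)`:
take the part of the walk between its last visit of `bdyIn p r` and the next visit of `bdyOut p R`: its sites lie in the annulus, where non free sites have height `t = 0`.
-/

set_option autoImplicit false

namespace Claimed.Agent.R291

open Claims Claims.C0467

theorem exit_bdy_arch (x : ℝ) (hx1 : 1 / Real.sqrt 2 ≤ x) (hx2 : x ≤ 1) (D : Set (ℝ × ℝ)) (hD : IsC2JordanDomain D)
    (δ : ℕ → ℝ) (F : ℕ → Finset (ℤ × ℤ)) (hF : IsInsideApprox D δ F) : BdyArch x D δ F :=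
  bmu_arch x hx1 hx2 D hD δ F hF

end Claimed.Agent.R291
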