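import Claimed.Agent.R291.Defs.BdySyn
import Claimed.Agent.R291.Bdy.Bulk

/-!
# Row 291, Exit/BdyBulk      CONTRACT BDY-core (173: R4, R6) <- SYN (PROVED by helper205 in Bdy/Bulk.lean from the height-only exits `exit_dis_switch` + `exit_dis_stack`; no cell law)
TEX[lem:bulk-tubes] l.455-520 ("three alternating circuits, two level loops, fair signs"), ONE STEP, no loop.      HEIGHT-ONLY FORM.
Flat trace `-1` on a hole-free `M ⊇ latBall z (κ ρ)`: with probability `≥ c0` no walk of NEGATIVE sites crosses `latBall z (κ ρ) \ latBall z ρ`.   (General traces `η ≥ -1`: `hto_order`, the event is increasing.)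
PROOF.  Lower comparison: ambient ball `V`, first colour `B`, pins `B = -` on `V \ M` (connected), `W` free: the lift anchored by the pair `{-2,-1}` on `V \ M` is a mixture of `htE x M k`, `k ∈ {-2,-1}`, `k ≤ -1`.
(PRIM) `P(Sep_+(V \ latBall z (κ ρ), latBall z ρ)) ≥ c` (the adverse pins are outside the ball).  The layer of `Inv_+` around the ball is connected (Timar), `B = +` on it: ONE pair `{4t, 4t+1}`.
The global `W`-flip `K ↦ -3 - K` preserves the law, `(B, τ)`, the layer, and maps `t ↦ -1 - t`: `P(Sep, t ≥ 0) ≥ c / 2 =: c0`.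
-/

set_option autoImplicit false

namespace Claimed.Agent.R291

open Claims Claims.C0467

theorem exit_bdy_bulk (x : ℝ) (hx1 : 1 / Real.sqrt 2 ≤ x) (hx2 : x ≤ 1) :
    ∃ (c0 : ℝ) (κ ρ0 : ℕ), 0 < c0 ∧ ∀ (M : Finset TV) (z : TV) (ρ : ℕ),
      MomCo M → ρ0 ≤ ρ → latBall z (κ * ρ) ⊆ M →
      c0 ≤ htP x M (fun _ => -1) (fun h => ¬ BdyLoX M (-1) (latBall z ρ : Set TV) ((latBall z (κ * ρ) : Set TV)ᶜ) h) :=
  bdy_bulk_exit x hx1 hx2

end Claimed.Agent.R291
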