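import Claimed.Agent.R291.Defs.Lim
import Claimed.Agent.R291.Exit.MomCov
import Claimed.Agent.R291.Mom.Smear

/-!
# Row 291, Exit/LimSm : [SM] smearing moments, zero trace, lattice form      (PRODUCER: unit MOM, head helper122; consumer LIM, helper181)
TEX[prop:smearing].  Statement = `LimSM` of Defs/Lim.      GLUE FILLED by helper164: `exit_mom_cov` + `mom_cov_ball` + `mom_sm_zero` (Mom/Smear.lean);
`c0 = 1/4`, weight bound `9`.
-/

set_option autoImplicit false

namespace Claimed.Agent.R291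

open Claims Claims.C0467

/-- the interior of a set with connected complement has connected complement (every site of the zero layer touches the complement) -/
theorem lim_sm_co {F : Finset TV} (hF : LimCoConn F) : MomCo (latInt F) := by
  have hsub : ∀ u, u ∉ F → u ∈ ((latInt F : Finset TV) : Set TV)ᶜ := fun u hu h => hu (lat_int_sub F h)
  -- a point off the interior is joined to a point off `F`
  have h1 : ∀ u, u ∈ ((latInt F : Finset TV) : Set TV)ᶜ → ∃ u', u' ∉ F ∧ TscR tscG ((latInt F : Finset TV) : Set TV)ᶜ u u' := by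
    intro u hu
    by_cases huF : u ∈ F
    · have : ¬ ∀ v, triAdj u v → v ∈ F := fun h => hu (lat_mem_int.2 ⟨huF, h⟩)
      push Not at this
      obtain ⟨v, hv, hvF⟩ := this
      exact ⟨v, hvF, Relation.ReflTransGen.single ⟨hv, hu, hsub v hvF⟩⟩
    · exact ⟨u, huF, Relation.ReflTransGen.refl⟩
  have h2 : ∀ u v, u ∉ F → Relation.ReflTransGen (fun a b => triAdj a b ∧ b ∉ F) u v →
      v ∉ F ∧ TscR tscG ((latInt F : Finset TV) : Set TV)ᶜ u v := by
    intro u v hu h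
    induction h with
    | refl => exact ⟨hu, Relation.ReflTransGen.refl⟩
    | tail _ hbc ih => exact ⟨hbc.2, ih.2.tail ⟨hbc.1, hsub _ ih.1, hsub _ hbc.2⟩⟩
  intro u hu v hv
  obtain ⟨u', hu', hr1⟩ := h1 u hu
  obtain ⟨v', hv', hr2⟩ := h1 v hv
  exact (hr1.trans (h2 u' v' hu' (hF u' v' hu' hv')).2).trans (tsc_R_symm hr2)

theorem lim_sm_adj_dist {u v : TV} (h : triAdj u v) : latDist u v = 1 := by
  rw [lat_adj_iff] at h
  unfold latDist
  generalize v - u = d at h
  revert d; decide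

/-- a ball well inside `F` lies in the interior -/
theorem lim_sm_ball_int {F : Finset TV} {u0 : TV} {r N : ℕ} (hr : r + 1 ≤ N) (hN : latBall u0 N ⊆ F) : latBall u0 r ⊆ latInt F := by
  intro u hu
  refine lat_mem_int.2 ⟨hN (mom_sm_ball_mono u0 (by omega) hu), fun v hv => hN ?_⟩
  rw [mom_sm_mem_ball] at hu ⊢
  have := mom_latDist_tri u0 u v
  rw [lim_sm_adj_dist hv] at this
  omega

theorem lim_sm_smear (u0 : TV) {a : ℕ} (ha : 1 ≤ a) {w : TV → ℝ} (hw : ∀ u, |w u| ≤ 1 / (a : ℝ) ^ 2) : MomSmear u0 a 9 w where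
  a_pos := ha
  sum_le := by
    have ha1 : (1:ℝ) ≤ a := by exact_mod_cast ha
    have h1 : ((latBall u0 a).card : ℝ) ≤ (2 * (a:ℝ) + 1) ^ 2 := by exact_mod_cast mom_sm_ball_card u0 a
    calc ∑ u ∈ latBall u0 a, |w u| ≤ ∑ _u ∈ latBall u0 a, 1 / (a : ℝ) ^ 2 := Finset.sum_le_sum fun u _ => hw u
      _ = (latBall u0 a).card * (1 / (a : ℝ) ^ 2) := by rw [Finset.sum_const, nsmul_eq_mul]
      _ ≤ (2 * (a:ℝ) + 1) ^ 2 * (1 / (a : ℝ) ^ 2) := mul_le_mul_of_nonneg_right h1 (by positivity)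
      _ ≤ 9 := by
        rw [mul_one_div, div_le_iff₀ (by positivity)]
        nlinarith
  sup_le := fun u _ => (hw u).trans (div_le_div_of_nonneg_right (by norm_num) (by positivity))

theorem exit_lim_sm (x : ℝ) (hx1 : 1 / Real.sqrt 2 ≤ x) (hx2 : x ≤ 1) : LimSM x := by
  have hx0 : 0 < x := lt_of_lt_of_le (by positivity) hx1
  obtain ⟨C0, hC0, H⟩ := exit_mom_cov x hx1 hx2
  intro m
  have hmd := mdpC_pos 1 (1 / 2) (2 * m)
  refine ⟨mdpC 1 (1 / 2) (2 * m) * (162 * (20 * (2 * C0) + 1)) ^ m, 1 / 4, by positivity, by norm_num,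
    fun F u0 a N N' w hF ha haN hN hN' hw => ?_⟩
  have h4 : 4 * a ≤ N := by
    have : (4:ℝ) * a ≤ N := by linarith
    exact_mod_cast this
  have hball : latBall u0 (3 * a) ⊆ latInt F := lim_sm_ball_int (by omega) hN
  have hn : ¬ latBall u0 N' ⊆ latInt F := fun h => hN' (h.trans (lat_int_sub F))
  obtain ⟨hn3, hcv⟩ := mom_cov_ball hC0 H (lim_sm_co hF) ha hball hn
  have han : (a : ℝ) ≤ N' := by exact_mod_cast (by omega : a ≤ N')
  have ha0 : (0:ℝ) < a := by exact_mod_cast (by omega : 0 < a)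
  have key := mom_sm_zero hx0.le hx2 (by positivity : (0:ℝ) ≤ 2 * C0) (by norm_num : (0:ℝ) < 9) (lim_sm_smear u0 ha hw) han hcv (2 * m)
  set L := Real.log ((N' : ℝ) / a) with hL
  have hL0 : 0 ≤ L := Real.log_nonneg ((one_le_div ha0).2 han)
  have e0 : (fun h : TV → ℤ => (∑ u ∈ latBall u0 a, w u * (h u : ℝ)) ^ (2 * m)) = fun h => |midY (latBall u0 a) w h| ^ (2 * m) := by
    funext h
    rw [(even_two_mul m).pow_abs]; rfl
  unfold htFz
  rw [e0]
  refine key.trans ?_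
  rw [mul_assoc]
  refine mul_le_mul_of_nonneg_left ?_ hmd.le
  rw [pow_mul, ← mul_pow]
  refine pow_le_pow_left₀ (sq_nonneg _) ?_ m
  unfold momM
  have hs2 : Real.sqrt (20 * (2 * C0) + 1) ^ 2 = 20 * (2 * C0) + 1 := Real.sq_sqrt (by positivity)
  have hs3 : Real.sqrt L ^ 2 = L := Real.sq_sqrt hL0
  have hs4 : 0 ≤ Real.sqrt L := Real.sqrt_nonneg _
  rw [mul_pow, mul_pow, hs2]
  have h5 : (1 + Real.sqrt L) ^ 2 ≤ 2 * (1 + L) := by nlinarith [sq_nonneg (1 - Real.sqrt L)]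
  calc (9:ℝ) ^ 2 * (20 * (2 * C0) + 1) * (1 + Real.sqrt L) ^ 2 ≤ 9 ^ 2 * (20 * (2 * C0) + 1) * (2 * (1 + L)) :=
        mul_le_mul_of_nonneg_left h5 (by positivity)
    _ = _ := by ring

end Claimed.Agent.R291
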