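import Claimed.Agent.R291.Bdy.Mom
import Claimed.Agent.R291.Exit.BdyArch
import Claimed.Agent.R291.Exit.LimSm

/-!
# Row 291, Exit/BdyCol : [COL] vanishing means of the upper bracket      (PRODUCER: unit BDY, helper176; consumer: glue of `exit_lim_brk`, clauses `col0`, `col`, helper34)
TEX[prop:bracket-collapse].  Statement = `BdyCol` of Defs/Bdy: ONE deterministic trace `t ∈ {0,1}` at a time, `t = 0` off the discs `bdyIn c r` about finitely many frontier points `c ∈ P`;
the threshold in `n` does not depend on `t`, so the bound passes to every mixture `π = ∑_t ν(t) htE x (latInt (F n)) t`.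
-/

set_option autoImplicit false

namespace Claimed.Agent.R291

open Claims Claims.C0467

theorem exit_bdy_col (x : ℝ) (hx1 : 1 / Real.sqrt 2 ≤ x) (hx2 : x ≤ 1) (D : Set (ℝ × ℝ)) (hD : IsC2JordanDomain D)
    (δ : ℕ → ℝ) (F : ℕ → Finset (ℤ × ℤ)) (hF : IsInsideApprox D δ F) : BdyCol x D δ F :=
  bdy_col (lt_of_lt_of_le (by positivity) hx1) hx2 hD hF (exit_bdy_arch x hx1 hx2 D hD δ F hF) (exit_lim_sm x hx1 hx2)

end Claimed.Agent.R291
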