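import Claimed.Agent.R291.Defs.Mom
import Claimed.Agent.R291.Dis.CutHt

/-!
# Row 291, Exit/DisCut      CONTRACT MOM <- DIS (typed by helper122; OWNER of the proof: unit DIS, head helper146; proof = `dch_main` of Dis/CutHt.lean, helper62)      TEX[prop:plane-moments] l.474-490, TEX[lem:cell-cut], TEX[lem:buffer-circuits]
STOPPED CUT, height-only form.  In a flat problem containing `latBall z0 (L1 ρ)`, with probability `≥ c1` an outermost good cut sits between `latBall z0 (ρ+1)` and `latBall z0 (2ρ)`;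
given the cut and the heights of its inner layer (ONE pair `{k, k+1}`: the layer is connected) the inside is an ordinary height problem.  Hence for every `φ ≥ 0` reading only the increments inside `latBall z0 ρ`:
`E φ ≥ c1 * inf E_{F,b} φ`, the infimum over hole-free `F` between the two balls and feasible `b` with values in a pair `{k, k+1}` on `latOut F`.
-/

set_option autoImplicit false

namespace Claimed.Agent.R291

open Claims Claims.C0467

theorem exit_dis_cut (x : ℝ) (hx1 : 1 / Real.sqrt 2 ≤ x) (hx2 : x ≤ 1) :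
    ∃ (c1 : ℝ) (L1 ρ0 : ℕ), 0 < c1 ∧ ∀ (F0 : Finset TV) (z0 : TV) (ρ : ℕ) (φ : (TV → ℤ) → ℝ) (m : ℝ),
      MomCo F0 → ρ0 ≤ ρ → latBall z0 (L1 * ρ) ⊆ F0 →
      (∀ h, 0 ≤ φ h) → HtLoc (latBall z0 ρ) φ → HtGrad φ →
      (∀ (F : Finset TV) (b : TV → ℤ) (k : ℤ), MomCo F → latBall z0 ρ ⊆ F → F ⊆ latBall z0 (2 * ρ) →
        (htCfg F b).Nonempty → (∀ u ∈ latOut F, b u = k ∨ b u = k + 1) → m ≤ htE x F b φ) →
      c1 * m ≤ htE x F0 0 φ :=
  dch_main x hx1 hx2

end Claimed.Agent.R291
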