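import Claimed.Agent.R291.Dis.CutPin

/-!
# Row 291, Exit/DisCutPin      CONTRACT PIN <- DIS (typed by helper34; OWNER of the proof: unit DIS, head helper146)      TEX[prop:pin-moments] l.392-412, TEX[pins:gap-closing] l.858-880
STOPPED CUT AROUND A TEST IN THE PLANE LAW WITH PINS, height-only form = `exit_dis_cut` (122) with remote spin pins.
Spin pins `B = +` on `G`, `W = +` on `D = ⋃_{l<k} L l` (`L l` connected), all OFF the ball `latBall z0 (L1 ρ)`.   With conditional probability `≥ c1` an outermost good plus cut sits between `latBall z0 (ρ+1)` and `latBall z0 (2ρ)`;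
the pin event is read outside; given the cut and the heights of its inner layer (ONE pair `{j, j+1}`) the inside is an ordinary height problem.   Hence for `φ ≥ 0` reading only the increments inside `latBall z0 ρ`:
`pinPer (φ 1_pins) ≥ c1 m pinPer (1_pins)`, `m` = infimum of `E_{F,b} φ` over hole-free `F` between the two balls and feasible `b` with values in one pair on `latOut F`.
`c1` depends on `x` and on the number `k` of labels only (buffer bound with the equalities retained, then label cost `2^-k`): NOT on the pins; in particular it is uniform when the gaps close.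
-/

set_option autoImplicit false

namespace Claimed.Agent.R291

open Claims Claims.C0467

theorem exit_dis_cut_pin (x : ℝ) (hx1 : 1 / Real.sqrt 2 ≤ x) (hx2 : x ≤ 1) :
    ∃ L1 ρ0 : ℕ, ∀ k : ℕ, ∃ c1 : ℝ, 0 < c1 ∧ ∀ (G : Finset TV) (L : Fin k → Finset TV) (z0 : TV) (ρ : ℕ) (φ : (TV → ℤ) → ℝ) (m : ℝ),
      (∀ l, TscConn tscG (L l : Set TV)) → ρ0 ≤ ρ → Disjoint G (latBall z0 (L1 * ρ)) → (∀ l, Disjoint (L l) (latBall z0 (L1 * ρ))) →
      (∀ h, 0 ≤ φ h) → HtLoc (latBall z0 ρ) φ → HtGrad φ →
      (∀ (F : Finset TV) (b : TV → ℤ) (j : ℤ), MomCo F → latBall z0 ρ ⊆ F → F ⊆ latBall z0 (2 * ρ) →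
        (htCfg F b).Nonempty → (∀ u ∈ latOut F, b u = j ∨ b u = j + 1) → m ≤ htE x F b φ) →
      c1 * m * (pinPer x fun h => pinI (PinSp G (Finset.univ.biUnion L) h)) ≤ pinPer x fun h => φ h * pinI (PinSp G (Finset.univ.biUnion L) h) :=
  dcp_main x hx1 hx2

end Claimed.Agent.R291
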