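import Claimed.Agent.R291.Dis.Fill

/-!
# Row 291, Exit/DisFill      CONTRACT PIN <- DIS (typed by helper34; OWNER of the proof: unit DIS, head helper146; (M) of 146 = E2 of 141)      TEX[pins:gap-closing] (pins:increment-tv), 2nd-3rd paragraphs; TEX[prop:local-mixing] second half
ADDING FAVOURABLE FIRST COLOUR PINS IN A SMALL BALL, height-only form, cross-multiplied (no division by a rare probability).
Spin pins `B = +` on `G` (arbitrary finite set), `W = +` on `D = ⋃_{l<k} L l`, `L l` connected.  Extra pins `B = +` on `E ⊆ latBall z r1`.  No double pin in `latBall z r2`.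
`Ψ` = any 4-periodic observable, `|Ψ| ≤ 1`, which reads the heights on a finite set `T` off `latBall z r2`.   Then the two conditional expectations of `Ψ` differ by `≤ C (r1/r2)^α`.
PROOF (DIS): same equalities `E_0` (edges inside the `L l`) in both laws; `h1 ≤ h2` (extra plus pins); (M): `|E_h1 F - E_h2 F| ≤ 2 P_h1(not Sep_+(latBall z r1, V \ latBall z r2))`, outward search; (STACK); `F` may read the labels (they are off the ball):
restore them: `|P(A|Lab) - P'(A|Lab)| ≤ C 2^k r`.   The complement of a ball is connected: all increments between sites of `T` are read off the ball.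
-/

set_option autoImplicit false

namespace Claimed.Agent.R291

open Claims Claims.C0467

theorem exit_dis_fill (x : ℝ) (hx1 : 1 / Real.sqrt 2 ≤ x) (hx2 : x ≤ 1) :
    ∃ α : ℝ, 0 < α ∧ ∀ k : ℕ, ∃ C : ℝ, 0 < C ∧ ∀ (G E T : Finset TV) (L : Fin k → Finset TV) (z : TV) (r1 r2 : ℕ) (Ψ : (TV → ℤ) → ℝ),
      (∀ l, TscConn tscG (L l : Set TV)) → 1 ≤ r1 → r1 ≤ r2 → E ⊆ latBall z r1 → (∀ l, Disjoint (L l) (latBall z r2)) → Disjoint T (latBall z r2) →
      HtLoc T Ψ → PinP4 Ψ → (∀ h, |Ψ h| ≤ 1) →
      |(pinPer x fun h => Ψ h * pinI (PinSp (G ∪ E) (Finset.univ.biUnion L) h)) * (pinPer x fun h => pinI (PinSp G (Finset.univ.biUnion L) h)) -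
          (pinPer x fun h => Ψ h * pinI (PinSp G (Finset.univ.biUnion L) h)) * (pinPer x fun h => pinI (PinSp (G ∪ E) (Finset.univ.biUnion L) h))| ≤
        C * ((r1 : ℝ) / r2) ^ α * ((pinPer x fun h => pinI (PinSp G (Finset.univ.biUnion L) h)) * pinPer x fun h => pinI (PinSp (G ∪ E) (Finset.univ.biUnion L) h)) :=
  dfi_main x hx1 hx2

end Claimed.Agent.R291
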