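import Claimed.Agent.R291.Defs.Mom
import Claimed.Agent.R291.Dis.HtOrd

/-!
# Row 291, Exit/DisOrder      CONTRACT MOM, PIN, BDY <- DIS (typed by helper122; OWNER of the proof: helper139 HT)      TEX[lem:height-order] first half
Monotonicity of the height law in the boundary function (Holley), on Defs/Ht.   No topology, any finite free set.
-/

set_option autoImplicit false

namespace Claimed.Agent.R291

open Claims Claims.C0467

theorem exit_dis_order (x : ℝ) (hx0 : 0 < x) (hx2 : x ≤ 1) (A : Finset TV) (b1 b2 : TV → ℤ) (G : (TV → ℤ) → ℝ)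
    (hb : ∀ u, b1 u ≤ b2 u) (h1 : (htCfg A b1).Nonempty) (h2 : (htCfg A b2).Nonempty) (hG : HtMono G) :
    htE x A b1 G ≤ htE x A b2 G := by
  obtain ⟨g1, hg1⟩ := h1
  obtain ⟨g2, hg2⟩ := h2
  exact hto_order hx0 hx2 A hb ⟨g1, ht_mem_cfg.1 hg1⟩ ⟨g2, ht_mem_cfg.1 hg2⟩ hG

end Claimed.Agent.R291
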