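import Claimed.Agent.R291.Defs.Pin
import Claimed.Agent.R291.Dis.PinBr
import Claimed.Agent.R291.Exit.DisCut

/-!
# Row 291, Exit/DisPinPos      CONTRACT PIN <- DIS (typed by helper34; OWNER of the proof: unit DIS, head helper146)      TEX 05-pins l.156-163, TEX[prop:rare-pins] (discrete:single-sign)
POSITIVITY of a finite pin event in the plane law, height-only form.   `PinGr G D h` : for some integer `t`, `h ∈ t + {0,1}` on `G` and `h = t` on `D`.
PROOF (DIS): the event contains `{h constant on G ∪ D}` ⊇ the spin event `B = W = +` on a ball `K ⊇ G ∪ D` (up to the Gray rotation);  (RARE1): `P_h(A) ≥ P_h(Sep_s(V \ U1, K)) p*`, `p* > 0` intrinsic (the constant height is admissible),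
uniformly in the ambient volume; (BR)/LIFT to pass to `htPl`.
FILLED by helper267: `exit_dis_cut` (stopped cut, 62) + `dbr_flat_low` (flat filling inside the cut) + `dbr_pl_lim` (the limit exists, Dis/PinBr).
-/

set_option autoImplicit false

namespace Claimed.Agent.R291

open Claims Claims.C0467 Filter Topology

theorem exit_dis_pin_pos (x : ℝ) (hx1 : 1 / Real.sqrt 2 ≤ x) (hx2 : x ≤ 1) (G D : Finset TV) :
    0 < htPl x fun h => pinI (PinGr G D h) := by
  have hx0 : 0 < x := lt_of_lt_of_le (by positivity) hx1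
  obtain ⟨c1, L1, ρ0, hc1, H⟩ := exit_dis_cut x hx1 hx2
  obtain ⟨r, hr, hQ, _⟩ := dpl_in_ball (G ∪ D) ∅
  have hQ' : G ∪ D ⊆ latBall 0 (max r ρ0) := hQ.trans (plh_ball_mono 0 (le_max_left _ _))
  have hloc := dbr_gr_loc (Finset.subset_union_left.trans hQ') (Finset.subset_union_right.trans hQ')
  have hgrad := dbr_gr_grad G D
  have hlow : ∀ R : ℕ, L1 * max r ρ0 ≤ R →
      c1 * (x ^ (latE (latBall 0 (2 * max r ρ0))).card / ((dbrNum (latBall 0 (2 * max r ρ0)) : ℝ) + 1)) ≤
        htE x (latBall 0 R) 0 (fun h => pinI (PinGr G D h)) := by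
    intro R hR
    refine H (latBall 0 R) 0 (max r ρ0) _ _ (plh_ball_compl_conn 0 R) (le_max_right _ _) (plh_ball_mono 0 hR)
      (fun h => dbr_pinI_nonneg _) hloc hgrad ?_
    intro F b k _ h1 h2 _ hb
    refine dbr_flat_low hx0 hx2 h2 hb _ (fun h => dbr_pinI_nonneg _) (dbr_pinI_pos ⟨k, ?_, ?_⟩)
    · intro u hu
      left
      unfold dbrFlat
      dsimp only
      rw [if_pos (h1 (hQ' (Finset.mem_union_left _ hu)))]
      ring
    · intro u hu
      unfold dbrFlat
      dsimp only
      rw [if_pos (h1 (hQ' (Finset.mem_union_right _ hu)))]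
      ring
  have lim := dbr_pl_lim x hx0 hx2 (exit_t23 x hx1 hx2) _ _ hloc hgrad
  have := ge_of_tendsto lim (eventually_atTop.2 ⟨_, hlow⟩)
  refine lt_of_lt_of_le ?_ this
  have hp : 0 < x ^ (latE (latBall 0 (2 * max r ρ0))).card := pow_pos hx0 _
  positivity

end Claimed.Agent.R291
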