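import Claimed.Agent.R291.Dis.RareHt
import Claimed.Agent.R291.Exit.T23

/-!
# Row 291, Exit/DisRare      CONTRACT PIN <- DIS (typed by helper34; OWNER of the proof: unit DIS, head helper146; 141 E9/E10, 194)      TEX[prop:rare-pins] (discrete:rare-pins), used at TEX (pins:multiplicative)
SEPARATED RARE PINS, height-only form, plane law `htPl`.   Obstacle `i` = connected first colour set `G i`, connected double pins `D i ⊆ G i`, collar `U i \ G i` with a necklace of `≤ N` balls (`PinFam`).
`p_i := htPl (1{PinGr (G i) (D i)})` ( = 4 x the probability of the spin event `B = +` on `G i`, `W = +` on `D i`).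
(up)  ALL INTEGER OFFSETS:  `htPl (1{∀ i, PinGr_i}) ≤ C ∏ p_i`.     The event is the disjoint union over the residues `κ ∈ (ℤ/4)^k` of the offsets of the spin events `⋂ ρ^{κ_i} P_i` (Gray rotations of the single pins:
      `κ_i` even: first spins `±` on `G i`, label `±` on the connected `D i`;  `κ_i` odd: first spins `±` on `D i`, label `∓` on the connected `G i`).  Each is in the class of Prop 2.11 up to the SIGNS of the labels, and the
      UPPER bound of Prop 2.11 does not see them:  `P(⋂ A_i ∩ L_i) ≤ P(⋂ A_i ∩ E_i) ≤ C ∏ P(A_i ∩ E_i) ≤ C 2^k ∏ P(A_i ∩ L_i)` (inside ONE obstacle there is one label).  `P(ρ^κ P_i) = P(P_i)` by Gray rotation.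
(lo)  OFFSETS IN `4ℤ` (the spin event of the paper, all labels plus):  `c ∏ p_i ≤ pinPer (1{∀ i, PinLoc_i})`.
`κ, n0` depend on `x` only ((PRIM)); `c, C` on `x`, the number `k` of obstacles and the size `N` of the necklaces: NOT on the sets, so the bounds are uniform over all placements.
-/

set_option autoImplicit false

namespace Claimed.Agent.R291

open Claims Claims.C0467

theorem exit_dis_rare (x : ℝ) (hx1 : 1 / Real.sqrt 2 ≤ x) (hx2 : x ≤ 1) :
    ∃ κ n0 : ℕ, ∀ k N : ℕ, ∃ c C : ℝ, 0 < c ∧ 0 < C ∧ ∀ G D U : Fin k → Finset TV, PinFam κ n0 N G D U →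
      ((htPl x fun h => pinI (∀ i, PinGr (G i) (D i) h)) ≤ C * ∏ i, (htPl x fun h => pinI (PinGr (G i) (D i) h))) ∧
      c * ∏ i, (htPl x fun h => pinI (PinGr (G i) (D i) h)) ≤ pinPer x fun h => pinI (∀ i, PinLoc (G i) (D i) h) :=
  drh_main x (lt_of_lt_of_le (by positivity) hx1) hx2 (exit_t23 x hx1 hx2)

end Claimed.Agent.R291
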