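import Claimed.Agent.R291.Dis.RarePl
import Claimed.Agent.R291.Exit.T23
import Claimed.Agent.R291.Pin.Shell

/-!
# Row 291, Exit/DisRareCl    CONTRACT PIN <- DIS (typed by helper130 with helper13; OWNERS of the proof: 13 `dis_rare_abs` (Dis/Rare), 130 planar layer (Dis/RarePl, no sorry), 141 `dis_prim`, 146 `dis_plane_lim`)
TEX[prop:rare-pins] (discrete:rare-pins)      = (P3) of `origin/helper34:notes/R291/sec5_34.md`, (P3') of `origin/helper48:notes/R291/sec5b_48.md`, in the cell vocabulary.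

MULTIPLICATIVE COMPARISON FOR SEPARATED RARE PINS.   `κ, n₀` depend on `x` only; `c, C` on `(x, k, m, N)` only; then ANY arrangement (`DrpArr κ n₀ N Ko U1 Bp Bm D μ`):
 * index type `ι` with at most `k` elements (doubled arrangements: `ι ⊕ ι`);
 * obstacle `i`: support `Ko i ⊆ U1 i`, SHELL = 34's `PinNeck κ n₀ N (Ko i) (U1 i)` VERBATIM (from `PinCol.neckI` of 72: `drp_neck_of_col`): `≤ N` balls `(z, n)`, `n ≥ n₀`, `latBall z (κ n + 2) ⊆ U1 i \ Ko i`,
   every lattice path from `Ko i` to the complement of `U1 i` meets a `latBall z n`;      the sets `latCl (U1 i)` are pairwise disjoint (`drp_far_disj`; `PinFam` ⟹ `DrpArr`: `drp_arr_of_fam`);      NO connectivity of `Ko i`, `U1 i`;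
 * pins `DrpPin`: `Bp i, Bm i ⊆ Ko i` ARBITRARY (both signs, any number of sites; if they meet, both sides vanish), `D i ⊆ Ko i` = union of `≤ μ i` `TscConn` sets, `∑ μ i ≤ m`;
 * `DrpEv Bp Bm D ω := Bp ⊆ ω.B ∧ (∀ v ∈ Bm, v ∉ ω.B) ∧ D ⊆ ω.W`.
CONCLUSION   `c ∏ P(Ev i) ≤ P(∀ i, Ev i) ≤ C ∏ P(Ev i)`   (1) for `P = (clAmb x V).P True`, every ambient `V ⊇ latCl (U1 i)`;   (2) for the free plane law `clPlane x (clInd ·)`.
Colours exchanged (lower bracket): `dis_plane_swap` / `dsy_swap_N` on the consumer's side.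
-/

set_option autoImplicit false

namespace Claimed.Agent.R291

open Claims Claims.C0467

theorem exit_dis_rare_cl (x : ℝ) (hx1 : 1 / Real.sqrt 2 ≤ x) (hx2 : x ≤ 1) :
    ∃ (κ n₀ : ℕ), 2 ≤ κ ∧ ∀ (k m N : ℕ), ∃ (c C : ℝ), 0 < c ∧ 0 < C ∧
      ∀ (ι : Type) [Fintype ι] [DecidableEq ι] (Ko U1 Bp Bm D : ι → Finset TV) (μ : ι → ℕ),
      Fintype.card ι ≤ k → ∑ i, μ i ≤ m → DrpArr κ n₀ N Ko U1 Bp Bm D μ →
      (∀ (V : Finset TV), DisAmb V → (∀ i, latCl (U1 i) ⊆ V) →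
        c * ∏ i, (clAmb x V).P (fun _ => True) (DrpEv (Bp i) (Bm i) (D i))
            ≤ (clAmb x V).P (fun _ => True) (fun ω => ∀ i, DrpEv (Bp i) (Bm i) (D i) ω) ∧
          (clAmb x V).P (fun _ => True) (fun ω => ∀ i, DrpEv (Bp i) (Bm i) (D i) ω)
            ≤ C * ∏ i, (clAmb x V).P (fun _ => True) (DrpEv (Bp i) (Bm i) (D i))) ∧
      (c * ∏ i, clPlane x (clInd (DrpEv (Bp i) (Bm i) (D i))) ≤ clPlane x (clInd fun ω => ∀ i, DrpEv (Bp i) (Bm i) (D i) ω) ∧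
        clPlane x (clInd fun ω => ∀ i, DrpEv (Bp i) (Bm i) (D i) ω) ≤ C * ∏ i, clPlane x (clInd (DrpEv (Bp i) (Bm i) (D i)))) :=
  dis_rare x (lt_of_lt_of_le (by positivity) hx1) hx2 (exit_t23 x hx1 hx2)

/-- the inner necklace of a collar of 72 (`Pin/Shell.lean`, `pin_sh_collar`) is a necklace of 34; the support may be any finite subset of the protected inside -/
theorem drp_neck_of_col {κ n n₀ N : ℕ} {A Rr O : Set TV} (h : PinCol κ n N A Rr O) (hn : n₀ ≤ n) {Ko U1 : Finset TV}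
    (hKo : (↑Ko : Set TV) ⊆ A) (hU : (↑U1 : Set TV) = Rr) : PinNeck κ n₀ N Ko U1 := by
  classical
  obtain ⟨Z, hZ, hb, hbl⟩ := h.neckI
  refine ⟨Z.image (fun z => (z, n)), Finset.card_image_le.trans hZ, fun p hp => ?_, fun Q a b ha hb' hab => ?_⟩
  · obtain ⟨z, hz, rfl⟩ := Finset.mem_image.1 hp
    refine ⟨hn, fun v hv => ?_⟩
    have h1 := hb z hz (Finset.mem_coe.2 hv)
    refine Finset.mem_sdiff.2 ⟨?_, fun hK => h1.2 (hKo (Finset.mem_coe.2 hK))⟩
    have h2 := h1.1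
    rw [← hU] at h2
    exact Finset.mem_coe.1 h2
  · have haA : a ∈ A := hKo (Finset.mem_coe.2 ha)
    have hbR : b ∉ Rr := fun hbR => hb' (by rw [← hU] at hbR; exact Finset.mem_coe.1 hbR)
    have haQ : a ∈ Q := by
      rcases Relation.ReflTransGen.cases_head hab with h0 | ⟨c, hc, _⟩
      · exact absurd (h.sub haA) (h0 ▸ hbR)
      · exact hc.2.1
    obtain ⟨z, hz, u, huQ, hu⟩ := hbl Q a b hab haQ haA hbR
    exact ⟨(z, n), Finset.mem_image_of_mem _ hz, u, huQ, Finset.mem_coe.2 hu⟩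

end Claimed.Agent.R291
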