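import Claimed.Agent.R291.Dis.Sync

/-!
# Row 291, Exit/DisSync      CONTRACT PIN <- DIS (typed by helper34; OWNER of the proof: unit DIS, head helper146)      TEX[pins:gap-closing] (pins:offset-synchronization), first paragraph of the proof
SYNCHRONISATION OF TWO OFFSETS ACROSS A GAP, height-only form.   `k` pinned groups (no separation assumed).  The ball `latBall z r2` contains no double pin; the groups `i`, `j` both cross the annulus
`latBall z r2 \ latBall z r1` (a site in the small ball, a site off the large ball; they are connected).  Then, given the spin pin event, the lifted pairs of `i` and `j` differ with probability `≤ C (r1/r2)^α`.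
PROOF (DIS): history = `B = +` on all `G l` (favourable), equality edges inside the `D l` (off the ball); (STACK): `Sep_+(V \ latBall z r2, latBall z r1)` fails with probability `≤ C (r1/r2)^α`; labels: factor `2^k` (LBL);
on `Sep_+` the layer of the complement of the invaded set is a CONNECTED set of `B = +` sites (CONN/Timar) which meets every connected set crossing the annulus; a connected set of `B = +` sites carries ONE lifted pair.
-/

set_option autoImplicit false

namespace Claimed.Agent.R291

open Claims Claims.C0467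

theorem exit_dis_sync (x : ℝ) (hx1 : 1 / Real.sqrt 2 ≤ x) (hx2 : x ≤ 1) :
    ∃ α : ℝ, 0 < α ∧ ∀ k : ℕ, ∃ C : ℝ, 0 < C ∧ ∀ (G D : Fin k → Finset TV) (z : TV) (r1 r2 : ℕ) (i j : Fin k),
      (∀ l, PinOb (G l) (D l)) → 1 ≤ r1 → r1 ≤ r2 → (∀ l, Disjoint (D l) (latBall z r2)) →
      (∃ u ∈ G i, u ∈ latBall z r1) → (∃ u ∈ G i, u ∉ latBall z r2) → (∃ u ∈ G j, u ∈ latBall z r1) → (∃ u ∈ G j, u ∉ latBall z r2) →
      (pinPer x fun h => pinI ((∀ l, PinLoc (G l) (D l) h) ∧ ¬ ∃ t : ℤ, PinAbs (G i) (D i) (fun u => h u - t) ∧ PinAbs (G j) (D j) (fun u => h u - t))) ≤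
        C * ((r1 : ℝ) / r2) ^ α * pinPer x fun h => pinI (∀ l, PinLoc (G l) (D l) h) :=
  dsn_main x hx1 hx2

end Claimed.Agent.R291
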