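import Claimed.Agent.R291.Defs.Lim
import Claimed.Agent.R291.Bdy.Mom
import Claimed.Agent.R291.Exit.BdyArch
import Claimed.Agent.R291.Exit.LimSm

/-!
# Row 291, Exit/LimBd : [BD] boundary moments with fixed interior spectators      (PRODUCER: unit BDY, head helper128; consumer LIM, helper181)
TEX[prop:boundary-moments], eq. boundary:spectator-vanishing.  Statement = `LimBD` of Defs/Lim.  NOT needed: comparable-depth spectators, joint approach, reference averages.
GLUE (helper176): `bdy_bd` (Bdy/Mom: cluster flip + Cauchy-Schwarz + compactness of the frontier) from `exit_bdy_arch` and `exit_lim_sm`.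
-/

set_option autoImplicit false

namespace Claimed.Agent.R291

open Claims Claims.C0467

theorem exit_lim_bd (x : ℝ) (hx1 : 1 / Real.sqrt 2 ≤ x) (hx2 : x ≤ 1) (D : Set (ℝ × ℝ)) (hD : IsC2JordanDomain D)
    (δ : ℕ → ℝ) (F : ℕ → Finset (ℤ × ℤ)) (hF : IsInsideApprox D δ F) : LimBD x D δ F :=
  bdy_bd (lt_of_lt_of_le (by positivity) hx1) hD hF (exit_bdy_arch x hx1 hx2 D hD δ F hF) (exit_lim_sm x hx1 hx2)

end Claimed.Agent.R291
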