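import Claimed.Agent.R291.Defs.Pin
import Claimed.Agent.R291.Exit.BdyCol

/-!
# Row 291, Exit/PinCol : vanishing bracket means, uniformly in the trace      (PRODUCER: unit BDY, helper176 = his [COL]; consumer: the glue `pin_pack` => `exit_lim_brk`)
TEX[prop:bracket-collapse].  Statement = `PinVan` of Defs/Pin.   GLUE FILLED (helper123): `PinTr01` gives the two hypotheses of `BdyCol` (`val`; `win` = zero off the discs `bdyIn c r`).
-/

set_option autoImplicit false

namespace Claimed.Agent.R291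

open Claims Claims.C0467

theorem exit_pin_col (x : ℝ) (hx1 : 1 / Real.sqrt 2 ≤ x) (hx2 : x ≤ 1) (D : Set (ℝ × ℝ)) (hD : IsC2JordanDomain D)
    (δ : ℕ → ℝ) (F : ℕ → Finset (ℤ × ℤ)) (hF : IsInsideApprox D δ F) : PinVan x D δ F := by
  intro P hP ψ hψ hψ0 η hη
  obtain ⟨r, hr, H⟩ := exit_bdy_col x hx1 hx2 D hD δ F hF P hP ψ hψ hψ0 η hη
  refine ⟨r, hr, H.mono fun n hn t ht => hn t ht.val fun u hu => ht.win u fun c hc => ?_⟩
  have := hu c hc
  unfold bdyIn at this
  simpa using this

end Claimed.Agent.R291
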