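import Claimed.Agent.R291.Defs.Pin
import Claimed.Agent.R291.Exit.LimSm
import Claimed.Agent.R291.Lim.Sm
import Claimed.Agent.R291.Dis.HtOrd
import Claimed.Agent.R291.Ht.Sm
import Claimed.Agent.R291.Wick.Green2

/-!
# Row 291, Exit/PinMomT : even moments of a fixed interior test, uniformly in the trace `t ∈ {0,1}`      (PROVED, helper108; consumer: `pin_pack`)
TEX[prop:smearing], last sentence of TEX[pins:bracket-order].  Statement = `PinMomT` of Defs/Pin.
Proof (no rerun of the smearing estimate): for `w ≥ 0` the smeared field `X` is increasing in the height, so `(X⁺)^(2m)` is increasing and `(X⁻)^(2m)` is decreasing.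
The order in the trace (`hto_order`, `0 ≤ t ≤ 1`) and the shift `E_1 G = E_0 G(· + 1)` (`hto_shift`) give
`E_t X^(2m) ≤ E_0 (X + W)^(2m) + E_0 X^(2m)` with `W = ∑ w ≤ ∫ |ψ|`; the zero trace moments are `lim_sm_fixed` (from `exit_lim_sm`).
A signed `ψ` is split as `ψ⁺ - ψ⁻`.
-/

set_option autoImplicit false

namespace Claimed.Agent.R291

open MeasureTheory Filter Topology Set
open scoped ContDiff
open Claims Claims.C0467

/-! ### 1. traces with values in `{0,1}` -/

/-- a trace with values in `{0,1}` is feasible: extend by `0` -/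
theorem lbk_feasible (A : Finset TV) {t : TV → ℤ} (ht : ∀ u, t u = 0 ∨ t u = 1) : ∃ h, HtAdm A t h := by
  classical
  refine ⟨fun u => if u ∈ A then 0 else t u, fun u hu => by simp [hu], fun u hu d _ => ?_⟩
  simp only [hu, if_true, sub_zero]
  split_ifs
  · simp
  · rcases ht (u + d) with h | h <;> simp [h]

theorem lbk_feasible_one (A : Finset TV) : ∃ h, HtAdm A (fun _ => (1 : ℤ)) h :=
  ⟨fun _ => 1, ht_adm_self fun _ _ _ _ => by simp⟩

/-- domination of the zero trace law -/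
theorem lbk_dom {x : ℝ} (hx : 0 < x) (hx1 : x ≤ 1) (F : Finset TV) {t : TV → ℤ} (ht : ∀ u, t u = 0 ∨ t u = 1) {G : (TV → ℤ) → ℝ}
    (hG : HtMono G) : htFz x F G ≤ htE x (latInt F) t G :=
  hto_order hx hx1 (latInt F) (b₁ := 0) (b₂ := t) (fun u => by rcases ht u with h | h <;> simp [h]) ⟨0, ht_adm_zero _⟩
    (lbk_feasible _ ht) hG

/-- domination by the law with constant trace `1` = the zero trace law shifted by `1` -/
theorem lbk_dom_one {x : ℝ} (hx : 0 < x) (hx1 : x ≤ 1) (F : Finset TV) {t : TV → ℤ} (ht : ∀ u, t u = 0 ∨ t u = 1) {G : (TV → ℤ) → ℝ}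
    (hG : HtMono G) : htE x (latInt F) t G ≤ htFz x F (fun h => G fun u => h u + 1) := by
  have h1 := hto_order hx hx1 (latInt F) (b₁ := t) (b₂ := fun _ => 1) (fun u => by rcases ht u with h | h <;> simp [h])
    (lbk_feasible _ ht) (lbk_feasible_one _) hG
  have h2 := ht_E_shift x (latInt F) 0 1 G
  have e : (fun u : TV => (0 : TV → ℤ) u + 1) = fun _ => (1 : ℤ) := by funext u; simp
  rw [e] at h2
  rw [h2] at h1
  exact h1

/-! ### 2. moments of a fixed test, uniformly in the trace -/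

theorem lbk_two_pow (a b : ℝ) (m : ℕ) : (a + b) ^ (2 * m) ≤ 2 ^ (2 * m) * (a ^ (2 * m) + b ^ (2 * m)) := by
  have := lim_sm_power_mean (Finset.univ : Finset (Fin 2)) Finset.univ_nonempty ![a, b] m
  simpa [Fin.sum_univ_two] using this

theorem lbk_pos_part_le (a : ℝ) (m : ℕ) : (max a 0) ^ (2 * m) ≤ a ^ (2 * m) := by
  rcases le_total 0 a with h | h
  · rw [max_eq_left h]
  · rw [max_eq_right h]
    rcases Nat.eq_zero_or_pos m with rfl | hm
    · simp
    · rw [zero_pow (by omega)]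
      exact (even_two_mul m).pow_nonneg a

theorem lbk_split_le (a : ℝ) (m : ℕ) : a ^ (2 * m) ≤ (max a 0) ^ (2 * m) + (max (-a) 0) ^ (2 * m) := by
  rcases le_total 0 a with h | h
  · rw [max_eq_left h]
    have : 0 ≤ (max (-a) 0) ^ (2 * m) := by positivity
    linarith
  · rw [max_eq_left (by linarith : 0 ≤ -a), (even_two_mul m).neg_pow]
    have : 0 ≤ (max a 0) ^ (2 * m) := by positivity
    linarith

/-- total weight of a test -/
theorem lbk_total_le {δ : ℝ} (hδ : 0 < δ) (A : Finset TV) {g : ℝ × ℝ → ℝ} (hg : Integrable g) : |∑ u ∈ A, latW δ g u| ≤ ∫ y, |g y| := by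
  refine (Finset.abs_sum_le_sum_abs _ _).trans ?_
  have := hg_sum_abs_face_integral_le hδ A hg
  rwa [Finset.sum_coe_sort A fun u => |∫ z in hexFace δ u, g z|] at this

/-- nonnegative test: sandwich between the traces `0` and `1` -/
theorem lbk_mom_pos {x : ℝ} (hx : 0 < x) (hx1 : x ≤ 1) {δ : ℝ} (hδ : 0 < δ) (F : Finset TV) {g : ℝ × ℝ → ℝ} (hg0 : ∀ y, 0 ≤ g y)
    (hgi : Integrable g) (m : ℕ) {B : ℝ} (hB : htFz x F (fun h => htSm δ F g h ^ (2 * m)) ≤ B) {t : TV → ℤ} (ht : ∀ u, t u = 0 ∨ t u = 1) :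
    htE x (latInt F) t (fun h => htSm δ F g h ^ (2 * m)) ≤ 2 ^ (2 * m) * (B + (∫ y, |g y|) ^ (2 * m)) + B := by
  have hmono : HtMono (htSm δ F g) := ht_sm_mono δ F hg0
  have hP : HtMono fun h => (max (htSm δ F g h) 0) ^ (2 * m) := fun h h' hh =>
    pow_le_pow_left₀ (le_max_right _ _) (max_le_max_right 0 (hmono h h' hh)) _
  have hN : HtMono fun h => -(max (-htSm δ F g h) 0) ^ (2 * m) := fun h h' hh =>
    neg_le_neg (pow_le_pow_left₀ (le_max_right _ _) (max_le_max_right 0 (neg_le_neg (hmono h h' hh))) _)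
  have s1 : htE x (latInt F) t (fun h => htSm δ F g h ^ (2 * m))
      ≤ htE x (latInt F) t (fun h => (max (htSm δ F g h) 0) ^ (2 * m)) + htE x (latInt F) t (fun h => (max (-htSm δ F g h) 0) ^ (2 * m)) := by
    rw [← ht_E_add]
    exact ht_E_mono hx _ _ fun h _ => lbk_split_le _ m
  set c : ℝ := ∑ u ∈ latInt F, latW δ g u with hc
  have hcI : c ^ (2 * m) ≤ (∫ y, |g y|) ^ (2 * m) := by
    rw [← (even_two_mul m).pow_abs c]
    exact pow_le_pow_left₀ (abs_nonneg _) (lbk_total_le hδ _ hgi) _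
  have s2 : htE x (latInt F) t (fun h => (max (htSm δ F g h) 0) ^ (2 * m)) ≤ 2 ^ (2 * m) * (B + (∫ y, |g y|) ^ (2 * m)) := by
    refine (lbk_dom_one hx hx1 F ht hP).trans ?_
    have a1 : htFz x F (fun h => (max (htSm δ F g fun u => h u + 1) 0) ^ (2 * m))
        ≤ htFz x F (fun h => 2 ^ (2 * m) * (htSm δ F g h ^ (2 * m) + c ^ (2 * m))) := by
      refine ht_E_mono hx _ _ fun h _ => ?_
      refine (lbk_pos_part_le _ m).trans ?_
      have : htSm δ F g (fun u => h u + 1) = htSm δ F g h + c := by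
        have := ht_pair_shift δ g (latInt F) h 1
        simpa [htSm] using this
      rw [this]
      exact lbk_two_pow _ _ m
    refine a1.trans ?_
    unfold htFz at hB ⊢
    rw [ht_E_smul, ht_E_add, ht_E_const hx (ht_adm_zero _)]
    have : (0 : ℝ) ≤ 2 ^ (2 * m) := by positivity
    exact mul_le_mul_of_nonneg_left (add_le_add hB hcI) this
  have s3 : htE x (latInt F) t (fun h => (max (-htSm δ F g h) 0) ^ (2 * m)) ≤ B := by
    have a1 := lbk_dom hx hx1 F ht hN
    unfold htFz at a1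
    rw [ht_E_neg_fun, ht_E_neg_fun] at a1
    have a2 : htE x (latInt F) 0 (fun h => (max (-htSm δ F g h) 0) ^ (2 * m)) ≤ htE x (latInt F) 0 (fun h => htSm δ F g h ^ (2 * m)) := by
      refine ht_E_mono hx _ _ fun h _ => ?_
      have := lbk_pos_part_le (-htSm δ F g h) m
      rwa [(even_two_mul m).neg_pow] at this
    unfold htFz at hB
    linarith
  linarith


/-- **[MOM-t]** moments of a fixed test, uniformly in the trace `t ∈ {0,1}`: positive and negative parts + sandwich -/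
theorem lbk_momT {x : ℝ} (hx : 0 < x) (hx1 : x ≤ 1) (hSM : LimSM x) {D : Set (ℝ × ℝ)} (hD : IsOpen D) (hB : Bornology.IsBounded D)
    {δ : ℕ → ℝ} {F : ℕ → Finset TV} (hF : IsInsideApprox D δ F) : PinMomT x D δ F := by
  intro ψ hψ m
  obtain ⟨C0, hC0, H⟩ := lim_sm_fixed hx hSM hD hB hF hψ.comp.isCompact hψ.sub m
  obtain ⟨M, hM0, hM⟩ := wkg_bdd hψ.cont hψ.comp
  have cp : Continuous fun y => max (ψ y) 0 := hψ.cont.max continuous_const
  have cm : Continuous fun y => max (-ψ y) 0 := hψ.cont.neg.max continuous_const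
  have zp : ∀ y, y ∉ tsupport ψ → max (ψ y) 0 = 0 := fun y hy => by rw [image_eq_zero_of_notMem_tsupport hy]; simp
  have zm : ∀ y, y ∉ tsupport ψ → max (-ψ y) 0 = 0 := fun y hy => by rw [image_eq_zero_of_notMem_tsupport hy]; simp
  have ip : Integrable fun y => max (ψ y) 0 := cp.integrable_of_hasCompactSupport
    (HasCompactSupport.intro hψ.comp.isCompact zp)
  have im : Integrable fun y => max (-ψ y) 0 := cm.integrable_of_hasCompactSupport
    (HasCompactSupport.intro hψ.comp.isCompact zm)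
  have bp : ∀ y, |max (ψ y) 0| ≤ M := fun y => by
    rw [abs_of_nonneg (le_max_right _ _)]
    exact max_le ((le_abs_self _).trans (hM y)) hM0
  have bm : ∀ y, |max (-ψ y) 0| ≤ M := fun y => by
    rw [abs_of_nonneg (le_max_right _ _)]
    exact max_le ((neg_le_abs _).trans (hM y)) hM0
  set B : ℝ := C0 * M ^ (2 * m) with hBdef
  refine ⟨2 ^ (2 * m) * ((2 ^ (2 * m) * (B + (∫ y, |max (ψ y) 0|) ^ (2 * m)) + B)
    + (2 ^ (2 * m) * (B + (∫ y, |max (-ψ y) 0|) ^ (2 * m)) + B)), ?_⟩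
  filter_upwards [H] with n hn t ht _
  have hδ := hF.1 n
  have p1 := lbk_mom_pos hx hx1 hδ (F n) (fun y => le_max_right (ψ y) 0) ip m (hn M _ bp zp) ht
  have p2 := lbk_mom_pos hx hx1 hδ (F n) (fun y => le_max_right (-ψ y) 0) im m (hn M _ bm zm) ht
  have e : ∀ h, htSm (δ n) (F n) ψ h = htSm (δ n) (F n) (fun y => max (ψ y) 0) h + -htSm (δ n) (F n) (fun y => max (-ψ y) 0) h := by
    intro h
    rw [← sub_eq_add_neg, ← ht_sm_sub (δ n) (F n) ip im h]
    congr 1
    funext y
    rcases le_total 0 (ψ y) with h0 | h0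
    · rw [max_eq_left h0, max_eq_right (by linarith)]; ring
    · rw [max_eq_right h0, max_eq_left (by linarith)]; ring
  have s1 : htE x (latInt (F n)) t (fun h => htSm (δ n) (F n) ψ h ^ (2 * m))
      ≤ htE x (latInt (F n)) t (fun h => 2 ^ (2 * m) * (htSm (δ n) (F n) (fun y => max (ψ y) 0) h ^ (2 * m)
        + htSm (δ n) (F n) (fun y => max (-ψ y) 0) h ^ (2 * m))) := by
    refine ht_E_mono hx _ _ fun h _ => ?_
    rw [e h]
    have := lbk_two_pow (htSm (δ n) (F n) (fun y => max (ψ y) 0) h) (-htSm (δ n) (F n) (fun y => max (-ψ y) 0) h) m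
    rwa [(even_two_mul m).neg_pow] at this
  refine s1.trans ?_
  rw [ht_E_smul, ht_E_add]
  exact mul_le_mul_of_nonneg_left (add_le_add p1 p2) (by positivity)

theorem exit_pin_momT (x : ℝ) (hx1 : 1 / Real.sqrt 2 ≤ x) (hx2 : x ≤ 1) (D : Set (ℝ × ℝ)) (hD : IsC2JordanDomain D)
    (δ : ℕ → ℝ) (F : ℕ → Finset (ℤ × ℤ)) (hF : IsInsideApprox D δ F) : PinMomT x D δ F :=
  lbk_momT (lt_of_lt_of_le (by positivity) hx1) hx2 (exit_lim_sm x hx1 hx2) hD.1 hD.2.1 hF

end Claimed.Agent.R291
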