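import Claimed.Agent.R291.Exit.PinIns
import Claimed.Agent.R291.Exit.PinCol
import Claimed.Agent.R291.Exit.PinMomT

/-!
# Row 291, Exit/LimBrk : [BRK] the upper bracket package      (PRODUCERS: PIN helper34/48 (ins), BDY helper176 (col), DIS helper139 (dom = monotonicity in the trace, DONE), MOM/LIM (mom); consumer LIM)
TEX[pins:bracket-order] TEX[prop:bracket-collapse] TEX[prop:bracket-insertion] TEX[pins:local-geometry].  Statement = `LimBRK` of Defs/Lim.      COMPILED GLUE (`pin_pack`, Pin/Brk.lean, helper34, 0 sorry).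
`π = ∑_t ν_n(t) Gibbs(F_n,t)` with the trace laws `ν_n` of exit_pin_ins: window radius `r = r(η)` from the collapse (`exit_pin_col`), then `n` from the insertion at that window.
-/

set_option autoImplicit false

namespace Claimed.Agent.R291

open Claims Claims.C0467

theorem exit_lim_brk (x : ℝ) (hx1 : 1 / Real.sqrt 2 ≤ x) (hx2 : x ≤ 1) (D : Set (ℝ × ℝ)) (hD : IsC2JordanDomain D)
    (δ : ℕ → ℝ) (F : ℕ → Finset (ℤ × ℤ)) (hF : IsInsideApprox D δ F) : LimBRK x D δ F :=
  pin_pack (lt_of_lt_of_le (by positivity) hx1) hx2 (exit_pin_ins x hx1 hx2 D hD δ F hF) (exit_pin_col x hx1 hx2 D hD δ F hF)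
    (exit_pin_momT x hx1 hx2 D hD δ F hF)

end Claimed.Agent.R291
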