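import Claimed.Agent.R291.Defs.Lim
import Claimed.Agent.R291.Lim.Pl

/-!
# Row 291, Exit/LimPl0 : [PL0] the plane law without the constant `v`      (PRODUCERS: DIS helper146/141 + glue of unit LIM (helper165/265); consumers PLN (94), MOM (164), LIM)
TEX[prop:local-mixing] TEX[cor:conditional-plane-matching] + l.560-650 of 07-limit.  Statement = `LimPl0 x` of Defs/Lim: `lim` (the limit defining `htPl` exists on local gradient observables)
and `mix` (approximate independence of the increments in `latBall u0 r` from ALL the heights off `latBall u0 L`, product form, bounded observables).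
Split off `exit_lim_pl` to break the cycle `cov ⇐ exit_pln ⇐ PlnIn ⇐ lim, mix` (alarm A6 of helper123, request of helper94).
-/

set_option autoImplicit false

namespace Claimed.Agent.R291

/-- FILLED (helper165): `lpl_pl0` (Lim/Pl.lean) = LIFT + label + PM + STACK of unit DIS + the Gray decoding (Lim/Gray.lean) -/
theorem exit_lim_pl0 (x : ℝ) (hx1 : 1 / Real.sqrt 2 ≤ x) (hx2 : x ≤ 1) : LimPl0 x :=
  lpl_pl0 x hx1 hx2

end Claimed.Agent.R291
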