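import Claimed.Agent.R291.Defs.Mom
import Claimed.Agent.R291.Mom.Plane

/-!
# Row 291, Exit/MomPlane      OWNER of the proof: helper122 (unit MOM)      TEX[prop:plane-moments] (moments:plane-bound)
Uniform moments of ZERO-TOTAL smearings, in EVERY flat problem whose hole-free free set contains `latBall z0 (C0 a)`.
With `F := latBall 0 R`, `R → ∞` this is the bound for the plane functional `htPl` of Defs/Ht (limit of a bounded sequence; one line for its owner).
Consumers: PLN l.215, 236, 760;  PIN l.448;  LIM l.108, 653 ([PM]).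
-/

set_option autoImplicit false

namespace Claimed.Agent.R291

open Claims Claims.C0467

theorem exit_mom_plane (x : ℝ) (hx1 : 1 / Real.sqrt 2 ≤ x) (hx2 : x ≤ 1) :
    ∃ C0 : ℕ, ∀ p : ℕ, ∃ C : ℝ, 0 < C ∧ ∀ (F : Finset TV) (z0 : TV) (a : ℕ) (A : ℝ) (w : TV →₀ ℝ),
      MomCo F → 1 ≤ a → latBall z0 (C0 * a) ⊆ F → MomSm z0 a A w → latTot w = 0 →
      htE x F 0 (fun h => |latArr w h| ^ p) ≤ (C * A) ^ p :=
  mom_pl_main x hx1 hx2

end Claimed.Agent.R291
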