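import Claimed.Agent.R291.Defs.Pln
import Claimed.Agent.R291.Pln.PncCoef

/-!
# Row 291, Exit/PlnCore : B3-I = TEX[plane:lem:defect, lem:endcaps, plane:lem:subsequences, plane:lem:unique]      (owner helper140; ADV helper90)

Pure measure theory on `ℝ × ℝ`: uses only the fields `box zero rot ann far` of `PlnSpec` and `PlnMix`.

ADAPTER (prefix `pnca`): `pncaIn hs hm : PncIn` = the local contract of `Pln/PncDefs.lean`:   `C0 = Cf` on the punctured disc `0 < |p| < 1/2`,   `nu = ν`,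
`E` = image of `Cf` on `{k ≠ 0} \ disc` by `(k, l) ↦ (k, lt [l])` (finite: `plnDD ≥ (2/π²)|p|²` on the box + `far`).      `exit_pln_core` = `pnc_main (pncaIn hs hm)`.
-/

set_option autoImplicit false

namespace Claimed.Agent.R291

open MeasureTheory Filter Topology
open scoped ENNReal Real

/-- the punctured disc of the local contract -/
def pncaD : Set (ℝ × ℝ) := {p | 0 < pncN p ∧ pncN p < 1 / 2}

/-- the rest of the torus off the line `k = 0` -/
def pncaF : Set (ℝ × ℝ) := {p | p.1 ≠ 0 ∧ p ∉ pncaD}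

/-- the global chart `(k, l) ↦ (k, lt [l])` -/
noncomputable def pncaPhi (p : ℝ × ℝ) : ℝ × ℝ := (p.1, pncLt (plnRed p.2))

theorem pnca_D_meas : MeasurableSet pncaD :=
  (measurableSet_lt measurable_const pnc_N_continuous.measurable).inter (measurableSet_lt pnc_N_continuous.measurable measurable_const)

theorem pnca_k_meas : MeasurableSet {p : ℝ × ℝ | p.1 ≠ 0} := (measurableSet_eq_fun measurable_fst measurable_const).compl

theorem pnca_F_meas : MeasurableSet pncaF := pnca_k_meas.inter pnca_D_meas.compl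

theorem pnca_red_meas : Measurable plnRed := by
  unfold plnRed
  simp only [toIocMod_eq_sub_fract_mul]
  fun_prop

theorem pnca_phi_meas : Measurable pncaPhi := by
  unfold pncaPhi
  exact measurable_fst.prodMk (pnc_lt_measurable.comp (pnca_red_meas.comp measurable_snd))

theorem pnca_red_self {l : ℝ} (hl : |l| < 1 / 2) : plnRed l = l := by
  unfold plnRed
  rw [toIocMod_eq_self]
  have h3 : Real.sqrt 3 < 2 := by
    rw [show (2 : ℝ) = Real.sqrt 4 by rw [show (4 : ℝ) = 2 ^ 2 by norm_num, Real.sqrt_sq (by norm_num)]]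
    exact Real.sqrt_lt_sqrt (by norm_num) (by norm_num)
  have h30 : 0 < Real.sqrt 3 := by positivity
  have hp : 1 / 2 < π / Real.sqrt 3 := by
    rw [lt_div_iff₀ h30]
    have := Real.pi_gt_three
    nlinarith
  have := abs_lt.1 hl
  constructor
  · linarith
  · have e : -(π / Real.sqrt 3) + 2 * π / Real.sqrt 3 = π / Real.sqrt 3 := by ring
    rw [e]; linarith

theorem pnca_phi_eq {p : ℝ × ℝ} (hp : p ∈ pncaD) : pncaPhi p = pncCh p := by
  unfold pncaPhi pncCh
  rw [pnca_red_self (lt_of_le_of_lt (pnc_abs_snd_le p) hp.2)]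

theorem pnca_lt_ell (y : ℝ) : pncLt (plnEll y) = y := by
  have h30 : Real.sqrt 3 ≠ 0 := by positivity
  unfold pncLt plnEll
  rw [show Real.sqrt 3 / 2 * (2 / Real.sqrt 3 * Real.arctan (Real.sqrt 3 / 2 * y)) = Real.arctan (Real.sqrt 3 / 2 * y) by field_simp,
    Real.tan_arctan]
  field_simp

theorem pnca_rot_D (p : ℝ × ℝ) : pncRot p ∈ pncaD ↔ p ∈ pncaD := by
  unfold pncaD
  simp only [Set.mem_ofPred_eq, pnc_N_rot]

/-- the lattice symbol is bounded below on the box: `DD ≥ (2/π²)|p|²` -/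
theorem pnca_DD_ge {p : ℝ × ℝ} (hp : p ∈ plnBox) : 2 / π ^ 2 * pncQ p ≤ plnDD p := by
  have h3 : Real.sqrt 3 ^ 2 = 3 := Real.sq_sqrt (by norm_num)
  obtain ⟨h1, h2⟩ := hp
  have e1 : plnPh p (1, 0) = p.1 := by simp [plnPh]
  have e2 : plnPh p (0, 1) = (p.1 + Real.sqrt 3 * p.2) / 2 := by simp [plnPh]; ring
  have c1 := Real.cos_le_one_sub_mul_cos_sq (x := p.1) (abs_le.2 ⟨h1.1.le, h1.2⟩)
  have c2 := Real.cos_le_one_sub_mul_cos_sq (x := (p.1 + Real.sqrt 3 * p.2) / 2) (abs_le.2 ⟨h2.1.le, h2.2⟩)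
  have c3 := Real.cos_le_one (plnPh p (-1, 1))
  unfold plnDD
  rw [e1, e2]
  have hπ : 0 < 2 / π ^ 2 := by positivity
  have key : pncQ p ≤ 2 * (p.1 ^ 2 + ((p.1 + Real.sqrt 3 * p.2) / 2) ^ 2) := by
    unfold pncQ
    nlinarith [sq_nonneg (p.1 + Real.sqrt 3 * p.2 / 3), sq_nonneg (p.1 + Real.sqrt 3 * p.2), sq_nonneg (Real.sqrt 3 * p.1 + p.2), sq_nonneg p.1, sq_nonneg p.2]
  nlinarith

variable {a : TV → ℝ} {Cf ν : Measure (ℝ × ℝ)} {K : ℝ}

theorem pnca_rot (hs : PlnSpec a Cf K) : (Cf.restrict pncaD).map pncRot = Cf.restrict pncaD := by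
  ext S hS
  rw [Measure.map_apply pnc_rot_continuous.measurable hS, Measure.restrict_apply (pnc_rot_continuous.measurable hS),
    Measure.restrict_apply hS]
  have hm : MeasurableSet (S ∩ pncaD) := hS.inter pnca_D_meas
  have h := hs.rot (Set.indicator (S ∩ pncaD) fun _ => 1) (measurable_const.indicator hm) (fun p hp => by
    refine Set.indicator_of_notMem (fun h => ?_) _
    have h2 : pncN p < 1 / 2 := h.2.2
    have h3 : pncN p ^ 2 = pncQ p := pnc_N_sq p
    have h4 : (1 : ℝ) ≤ pncQ p := hp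
    nlinarith [pnc_N_nonneg p])
  rw [lintegral_indicator hm, setLIntegral_const, one_mul] at h
  rw [← h]
  have e : (fun p => Set.indicator (S ∩ pncaD) (fun _ => (1 : ℝ≥0∞)) (plnRot p)) = Set.indicator (pncRot ⁻¹' S ∩ pncaD) fun _ => 1 := by
    funext p
    by_cases hp : p ∈ pncRot ⁻¹' S ∩ pncaD
    · rw [Set.indicator_of_mem hp, Set.indicator_of_mem (show plnRot p ∈ S ∩ pncaD from ⟨hp.1, (pnca_rot_D p).2 hp.2⟩)]
    · rw [Set.indicator_of_notMem hp, Set.indicator_of_notMem (show plnRot p ∉ S ∩ pncaD from fun h => hp ⟨h.1, (pnca_rot_D p).1 h.2⟩)]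
  rw [e, lintegral_indicator ((pnc_rot_continuous.measurable hS).inter pnca_D_meas), setLIntegral_const, one_mul]

theorem pnca_ann (hs : PlnSpec a Cf K) (r : ℝ) (hr : 0 < r) : (Cf.restrict pncaD) {p | r ≤ pncN p ∧ pncN p ≤ 2 * r} ≤ ENNReal.ofReal K := by
  rw [Measure.restrict_apply (pnc_meas_shell _ _)]
  by_cases h : r ≤ 1 / 2
  · refine (measure_mono fun p hp => ?_).trans (hs.ann r hr h)
    obtain ⟨⟨h1, h2⟩, -⟩ := hp
    have h3 : pncN p ^ 2 = plnSq p := pnc_N_sq p
    constructor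
    · rw [← h3]; exact pow_le_pow_left₀ hr.le h1 2
    · rw [← h3]; calc pncN p ^ 2 ≤ (2 * r) ^ 2 := pow_le_pow_left₀ (pnc_N_nonneg p) h2 2
        _ = 4 * r ^ 2 := by ring
  · have : {p | r ≤ pncN p ∧ pncN p ≤ 2 * r} ∩ pncaD = ∅ := by
      ext p
      simp only [Set.mem_inter_iff, Set.mem_empty_iff_false, iff_false, not_and]
      intro h1 h2
      have a1 : r ≤ pncN p := h1.1
      have a2 : pncN p < 1 / 2 := h2.2
      linarith
    rw [this]; simp

theorem pnca_F_fin (hs : PlnSpec a Cf K) : Cf pncaF < ∞ := by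
  have hd : (0 : ℝ) < 2 / π ^ 2 * (1 / 4) := by positivity
  have hDm : Measurable plnDD := by unfold plnDD plnPh; fun_prop
  have h1 : Cf pncaF ≤ Cf {p | ENNReal.ofReal (2 / π ^ 2 * (1 / 4)) ≤ ENNReal.ofReal (plnDD p)} := by
    refine measure_mono_ae ?_
    filter_upwards [measure_eq_zero_iff_ae_notMem.1 hs.box] with p hp hF
    have hbox : p ∈ plnBox := by by_contra h; exact hp h
    refine ENNReal.ofReal_le_ofReal (le_trans ?_ (pnca_DD_ge hbox))
    have hN : 1 / 2 ≤ pncN p := by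
      by_contra hlt
      refine hF.2 ⟨?_, not_le.1 hlt⟩
      exact lt_of_lt_of_le (abs_pos.2 hF.1) (pnc_abs_fst_le p)
    have : (1 / 4 : ℝ) ≤ pncQ p := by
      rw [← pnc_N_sq]; nlinarith
    gcongr
  have h2 := mul_meas_ge_le_lintegral (μ := Cf) hDm.ennreal_ofReal (ENNReal.ofReal (2 / π ^ 2 * (1 / 4)))
  have h3 : ENNReal.ofReal (2 / π ^ 2 * (1 / 4)) * Cf pncaF ≤ ENNReal.ofReal K := (mul_le_mul' le_rfl h1).trans (h2.trans hs.far)
  by_contra htop
  rw [not_lt, top_le_iff] at htop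
  rw [htop, ENNReal.mul_top (by simpa using hd)] at h3
  exact absurd h3 (by simp)

theorem pnca_cau_univ : plnCau Set.univ = 1 := by
  unfold plnCau
  rw [withDensity_apply _ MeasurableSet.univ, Measure.restrict_univ, ← pnc_cd_lintegral one_pos]
  refine lintegral_congr fun t => ?_
  unfold pncCd
  simp

/-- the standard Cauchy form of the Cauchy average -/
theorem pnca_P_eq {G : ℝ × ℝ → ℝ≥0∞} (hG : Measurable G) {q : ℝ × ℝ} (hq : 0 ≤ q.2) :
    ∫⁻ t, G (q.1, q.2 * t) ∂plnCau = pncP G q := by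
  unfold pncP
  split_ifs with h
  · simp only [h, zero_mul, lintegral_const, pnca_cau_univ, mul_one]
  · have hs : 0 < q.2 := lt_of_le_of_ne hq (Ne.symm h)
    unfold plnCau
    have hd : Measurable fun t : ℝ => ENNReal.ofReal (1 / (π * (1 + t ^ 2))) := by fun_prop
    have hg : Measurable fun t : ℝ => G (q.1, q.2 * t) := hG.comp (measurable_const.prodMk (measurable_const.mul measurable_id))
    rw [lintegral_withDensity_eq_lintegral_mul _ hd hg]
    set H : ℝ → ℝ≥0∞ := fun t' => ENNReal.ofReal (1 / (π * (1 + (t' / q.2) ^ 2))) * G (q.1, t') with hH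
    have hHm : Measurable H := by
      refine Measurable.mul (by fun_prop) (hG.comp (measurable_const.prodMk measurable_id))
    have e1 : ∫⁻ t, ((fun t => ENNReal.ofReal (1 / (π * (1 + t ^ 2)))) * fun t => G (q.1, q.2 * t)) t = ∫⁻ t, H (q.2 * t) := by
      refine lintegral_congr fun t => ?_
      simp only [Pi.mul_apply, hH]
      rw [mul_div_cancel_left₀ _ h]
    have hmul : Measurable fun t : ℝ => q.2 * t := measurable_const.mul measurable_id
    rw [e1, ← lintegral_map hHm hmul, Real.map_volume_mul_left h, lintegral_smul_measure,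
      smul_eq_mul, ← lintegral_const_mul _ hHm]
    refine lintegral_congr fun t => ?_
    simp only [hH]
    rw [← mul_assoc, ← ENNReal.ofReal_mul (abs_nonneg _), mul_comm]
    congr 2
    unfold pncCd
    rw [abs_of_pos (inv_pos.2 hs)]
    field_simp

theorem pnca_mix (hm : PlnMix Cf ν) (G : ℝ × ℝ → ℝ≥0∞) (hG : Measurable G) :
    ∫⁻ x, pncP G x ∂ν = ∫⁻ p in {p : ℝ × ℝ | p.1 ≠ 0}, G (pncCh p) ∂(Cf.restrict pncaD) + ∫⁻ x, G x ∂((Cf.restrict pncaF).map pncaPhi) := by
  have hG2 : Measurable fun y : ℝ × ℝ => G (y.1, pncLt y.2) := hG.comp (measurable_fst.prodMk (pnc_lt_measurable.comp measurable_snd))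
  have h := hm.mix _ hG2
  have eR : ∫⁻ q, ∫⁻ t, G (q.1, pncLt (plnEll (q.2 * t))) ∂plnCau ∂ν = ∫⁻ x, pncP G x ∂ν := by
    refine lintegral_congr_ae ?_
    filter_upwards [measure_eq_zero_iff_ae_notMem.1 hm.supp] with q hq
    have hq' : 0 ≤ q.2 := by
      by_contra hneg
      exact hq fun hh => hneg hh.2.2.1
    simp only [pnca_lt_ell]
    exact pnca_P_eq hG hq'
  rw [eR] at h
  rw [← h]
  have hsplit : {p : ℝ × ℝ | p.1 ≠ 0} = ({p : ℝ × ℝ | p.1 ≠ 0} ∩ pncaD) ∪ pncaF := by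
    ext p
    constructor
    · intro hp
      by_cases hD : p ∈ pncaD
      · exact Or.inl ⟨hp, hD⟩
      · exact Or.inr ⟨hp, hD⟩
    · rintro (hp | hp)
      · exact hp.1
      · exact hp.1
  have hdisj : Disjoint ({p : ℝ × ℝ | p.1 ≠ 0} ∩ pncaD) pncaF := by
    rw [Set.disjoint_left]
    intro p hp hF
    exact hF.2 hp.2
  rw [hsplit, lintegral_union pnca_F_meas hdisj, ← hsplit, Measure.restrict_restrict pnca_k_meas, lintegral_map hG pnca_phi_meas]
  congr 1
  refine setLIntegral_congr_fun (pnca_k_meas.inter pnca_D_meas) fun p hp => ?_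
  show G (pncaPhi p) = G (pncCh p)
  rw [pnca_phi_eq hp.2]

/-- **the adapter**: the local contract from `PlnSpec` + `PlnMix` -/
noncomputable def pncaIn (hs : PlnSpec a Cf K) (hm : PlnMix Cf ν) : PncIn where
  C0 := Cf.restrict pncaD
  nu := ν
  E := (Cf.restrict pncaF).map pncaPhi
  r0 := 1 / 2
  K := K
  r0_pos := by norm_num
  r0_le := le_rfl
  supp := by
    have : {p | ¬ (0 < pncN p ∧ pncN p < 1 / 2)} = pncaDᶜ := rfl
    rw [this, Measure.restrict_apply pnca_D_meas.compl, Set.compl_inter_self, measure_empty]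
  rot := pnca_rot hs
  ann := pnca_ann hs
  Efin := by
    refine ⟨?_⟩
    rw [Measure.map_apply pnca_phi_meas MeasurableSet.univ, Set.preimage_univ, Measure.restrict_apply MeasurableSet.univ, Set.univ_inter]
    exact pnca_F_fin hs
  E0 := by
    have hS : MeasurableSet {x : ℝ × ℝ | x.1 = 0} := measurableSet_eq_fun measurable_fst measurable_const
    rw [Measure.map_apply pnca_phi_meas hS, Measure.restrict_apply (pnca_phi_meas hS)]
    have : pncaPhi ⁻¹' {x : ℝ × ℝ | x.1 = 0} ∩ pncaF = ∅ := by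
      ext p
      simp only [Set.mem_inter_iff, Set.mem_empty_iff_false, iff_false, not_and]
      intro h1 h2
      exact h2.1 h1
    rw [this, measure_empty]
  nu0 := by
    refine measure_mono_null (fun q hq => ?_) hm.supp
    rintro ⟨h1, -, h3, -⟩
    rcases hq with h | h
    · exact h1 h
    · exact absurd h3 (not_le.2 h)
  mix := pnca_mix hm

theorem pnca_eqns_cite : True := by
  have := @pncaD.eq_1
  have := @pncaF.eq_1
  have := @pncaPhi.eq_1
  have := @pncaIn.eq_1
  trivial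

theorem exit_pln_core {a : TV → ℝ} {Cf ν : Measure (ℝ × ℝ)} {K : ℝ} (hs : PlnSpec a Cf K) (hm : PlnMix Cf ν) :
    ∃ c : ℝ, 0 ≤ c ∧ PlnPS Cf c := by
  set I := pncaIn hs hm with hI
  refine ⟨pncC I, pnc_C_nonneg I, fun Ψ hc hcs => ?_⟩
  refine (pnc_main I hc hcs).congr' ?_
  obtain ⟨M, R, hM0, hR1, hM, hR⟩ := pnc_cs_bound hc hcs
  have hev : ∀ᶠ δ : ℝ in 𝓝[>] 0, R * δ < 1 / 2 := by
    have : Tendsto (fun δ : ℝ => R * δ) (𝓝[>] 0) (𝓝 (R * 0)) := (tendsto_const_nhds.mul tendsto_id).mono_left nhdsWithin_le_nhds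
    rw [mul_zero] at this
    exact this.eventually (Iio_mem_nhds (by norm_num))
  filter_upwards [hev, self_mem_nhdsWithin] with δ hδ hδ0
  have hδ0 : 0 < δ := hδ0
  show ∫ p, Ψ (pncSc δ p) * pncQ (pncSc δ p) ∂(Cf.restrict pncaD) = _
  rw [← integral_indicator pnca_D_meas]
  refine integral_congr_ae ?_
  have h0 : ∀ᵐ p ∂Cf, p ≠ 0 := measure_eq_zero_iff_ae_notMem.1 hs.zero
  filter_upwards [h0] with p hp
  have e1 : δ⁻¹ • p = pncSc δ p := by
    unfold pncSc
    ext <;> simp [div_eq_inv_mul]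
  have e2 : plnSq p / δ ^ 2 = pncQ (pncSc δ p) := (pnc_Q_sc δ p).symm
  rw [e1, e2]
  by_cases hD : p ∈ pncaD
  · rw [Set.indicator_of_mem hD]
  · rw [Set.indicator_of_notMem hD]
    have hpos : 0 < pncN p := by
      rcases (pnc_N_nonneg p).lt_or_eq with h | h
      · exact h
      · exfalso
        apply hp
        have h1 := pnc_abs_fst_le p
        have h2 := pnc_abs_snd_le p
        rw [← h] at h1 h2
        ext
        · exact abs_nonpos_iff.1 h1
        · exact abs_nonpos_iff.1 h2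
    have hN : 1 / 2 ≤ pncN p := by
      by_contra hlt
      exact hD ⟨hpos, not_le.1 hlt⟩
    rw [hR (pncSc δ p) (by rw [pnc_N_sc hδ0, lt_div_iff₀ hδ0]; linarith), zero_mul]

end Claimed.Agent.R291
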