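import Claimed.Agent.R291.Defs.Pln
import Claimed.Agent.R291.Pln.PcvC

/-!
# Row 291, Exit/PlnCov : B3-II = proofs of TEX[prop:plane-covariance] and TEX[prop:reflection-null], model free      (owner helper90)

Transform limit and bounds of `plnHat (plnW δ f)` (one summation by parts), near part by `PlnPS`, small and large rescaled frequencies by `PlnSpec.ann`,
far part by `PlnSpec.far`; Laplacian form; `c > 0` by `PlnIn.nd`; moving rows absorbed by `PlnIn.sm`.
-/

set_option autoImplicit false

namespace Claimed.Agent.R291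

open MeasureTheory

theorem exit_pln_cov {a : TV → ℝ} {Cf : Measure (ℝ × ℝ)} {K c : ℝ} (h : PlnIn a) (hs : PlnSpec a Cf K) (hc : 0 ≤ c)
    (hp : PlnPS Cf c) : 0 < c ∧ PlnPC (plnGam a) ((2 * Real.pi) ^ 2 * c) ∧ PlnRN (plnGam a) :=
  pcv_main h hs hc hp

end Claimed.Agent.R291
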