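import Claimed.Agent.R291.Defs.Pln
import Claimed.Agent.R291.Exit.LimPl0
import Claimed.Agent.R291.Ht.Basic
import Claimed.Agent.R291.Pl.Ball

/-!
# Row 291, Exit/PlnHt : what PLN consumes on the plane functional `htPl x`      (statement helper94; producers DIS 146/141 + 181; PROOF helper106, prefix `plnht_`)

TEX[prop:local-mixing].  `lim` = `LimPlane.lim` verbatim.  `trans` = translation invariance of `htPl x` on local gradient observables:
from `lim` + `LimPlane.mix` (`G = 1`, hexagons centred at `c`; truncate `G`, bounded on admissible heights) + `ht_E_ball_trans`.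
NO dependence on `v` / on `exit_lim_pl` (which contains the covariance produced by PLN): wired to the `v`-free exit `exit_lim_pl0` of lim + mix.
* `plnht_bound`   a local gradient observable is bounded on the heights which are 1-Lipschitz in a hexagon
* `plnht_ball`    `htE x (latBall c R) 0 Ψ → htPl x Ψ` for EVERY centre `c` (bounded `Ψ`; `mix` with `G = 1`)
* `plnht_any`     the same for every local gradient observable
-/

set_option autoImplicit false

namespace Claimed.Agent.R291

open Claims Claims.C0467 Filter Topology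

/-- 1-Lipschitz along the edges inside the hexagon `latBall 0 r` -/
def PlnhtLip (r : ℕ) (h : TV → ℤ) : Prop :=
  ∀ u ∈ latBall 0 r, ∀ d ∈ latDirs, u + d ∈ latBall 0 r → |h (u + d) - h u| ≤ 1

open Classical in
/-- the observable `G / M` cut off on the heights which are not 1-Lipschitz in the hexagon -/
noncomputable def plnhtTr (r : ℕ) (M : ℝ) (G : (TV → ℤ) → ℝ) (h : TV → ℤ) : ℝ := if PlnhtLip r h then G h / M else 0

theorem plnht_eqns_cite : True := by
  have := @PlnhtLip.eq_1
  have := @plnhtTr.eq_1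
  trivial

theorem plnht_lip_of_adm {A : Finset TV} {h : TV → ℤ} (hh : HtAdm A 0 h) (r : ℕ) : PlnhtLip r h := by
  intro u _ d hd _
  by_cases hu : u ∈ A
  · exact hh.2 u hu d hd
  · by_cases hv : u + d ∈ A
    · have := hh.2 (u + d) hv (-d) (lat_dirs_neg hd)
      rw [add_neg_cancel_right, abs_sub_comm] at this
      exact this
    · rw [hh.1 u hu, hh.1 _ hv]; simp

/-- oscillation of a Lipschitz height in the hexagon -/
theorem plnht_osc {r : ℕ} {h : TV → ℤ} (hh : PlnhtLip r h) : ∀ (n : ℕ) (u : TV), latN u = n → n ≤ r → |h u - h 0| ≤ n := by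
  intro n
  induction n with
  | zero =>
    intro u hu _
    rw [plh_N_eq_zero.1 hu]; simp
  | succ n ih =>
    intro u hu hn
    have hu0 : u ≠ 0 := by
      rintro rfl
      rw [plh_N_zero] at hu
      omega
    obtain ⟨d, hd, hN⟩ := plh_desc hu0
    have h1 := ih (u + d) (by omega) (by omega)
    have m1 : u ∈ latBall 0 r := by rw [lat_mem_ball, sub_zero]; omega
    have m2 : u + d ∈ latBall 0 r := by rw [lat_mem_ball, sub_zero]; omega
    have h2 := hh u m1 d hd m2
    have h3 := abs_sub_le (h u) (h (u + d)) (h 0)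
    rw [abs_sub_comm (h u) (h (u + d))] at h3
    push_cast
    linarith

/-- the heights supported in the hexagon with values in `[-r, r]` -/
theorem plnht_finite (r : ℕ) : {g : TV → ℤ | (∀ u, u ∉ latBall 0 r → g u = 0) ∧ ∀ u ∈ latBall 0 r, |g u| ≤ r}.Finite := by
  classical
  let ext : (latBall 0 r → ℤ) → TV → ℤ := fun g u => if hu : u ∈ latBall 0 r then g ⟨u, hu⟩ else 0
  refine ((Fintype.piFinset (fun _ : latBall 0 r => Finset.Icc (-(r : ℤ)) r)).finite_toSet.image ext).subset ?_
  intro h hh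
  refine ⟨fun u => h u, ?_, ?_⟩
  · rw [Finset.mem_coe, Fintype.mem_piFinset]
    intro a
    rw [Finset.mem_Icc]
    exact abs_le.1 (hh.2 a a.2)
  · funext u
    by_cases hu : u ∈ latBall 0 r
    · simp [ext, hu]
    · simp [ext, hu, hh.1 u hu]

/-- a local gradient observable is bounded on the heights which are 1-Lipschitz in a hexagon containing its support -/
theorem plnht_bound {S : Finset TV} {G : (TV → ℤ) → ℝ} (hl : HtLoc S G) (hg : HtGrad G) {r : ℕ} (hS : S ⊆ latBall 0 r) :
    ∃ M : ℝ, 0 < M ∧ ∀ h, PlnhtLip r h → |G h| ≤ M := by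
  classical
  refine ⟨1 + ∑ g ∈ (plnht_finite r).toFinset, |G g|, by
    have : 0 ≤ ∑ g ∈ (plnht_finite r).toFinset, |G g| := Finset.sum_nonneg fun _ _ => abs_nonneg _
    linarith, fun h hh => ?_⟩
  set g : TV → ℤ := fun u => if u ∈ latBall 0 r then h u - h 0 else 0 with hgd
  have hmem : g ∈ (plnht_finite r).toFinset := by
    rw [Set.Finite.mem_toFinset]
    refine ⟨fun u hu => by simp [hgd, hu], fun u hu => ?_⟩
    have h1 : latN u ≤ r := by rw [lat_mem_ball, sub_zero] at hu; exact hu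
    have h2 := plnht_osc hh (latN u) u rfl h1
    have h3 : ((latN u : ℕ) : ℤ) ≤ (r : ℤ) := by exact_mod_cast h1
    simp only [hgd, hu, if_true]
    linarith
  have e : G h = G g := by
    rw [← hg h (-h 0)]
    refine hl _ _ fun u hu => ?_
    simp only [hgd, hS hu, if_true]
    ring
  rw [e]
  have := Finset.single_le_sum (f := fun g => |G g|) (fun _ _ => abs_nonneg _) hmem
  linarith

theorem plnht_lip_congr {r : ℕ} {h h' : TV → ℤ} (e : ∀ u ∈ latBall 0 r, h u = h' u) (hh : PlnhtLip r h) : PlnhtLip r h' := by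
  intro u hu d hd hud
  rw [← e u hu, ← e _ hud]
  exact hh u hu d hd hud

theorem plnht_tr_loc {S : Finset TV} {G : (TV → ℤ) → ℝ} (hl : HtLoc S G) {r : ℕ} (hS : S ⊆ latBall 0 r) (M : ℝ) :
    HtLoc (latBall 0 r) (plnhtTr r M G) := by
  intro h h' e
  have e1 : PlnhtLip r h ↔ PlnhtLip r h' := ⟨plnht_lip_congr e, plnht_lip_congr fun u hu => (e u hu).symm⟩
  unfold plnhtTr
  rw [hl h h' fun u hu => e u (hS hu)]
  by_cases hh : PlnhtLip r h
  · rw [if_pos hh, if_pos (e1.1 hh)]
  · rw [if_neg hh, if_neg fun k => hh (e1.2 k)]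

theorem plnht_tr_grad {G : (TV → ℤ) → ℝ} (hg : HtGrad G) (r : ℕ) (M : ℝ) : HtGrad (plnhtTr r M G) := by
  intro h c
  have e1 : PlnhtLip r (fun u => h u + c) ↔ PlnhtLip r h := by
    unfold PlnhtLip
    simp only [add_sub_add_right_eq_sub]
  unfold plnhtTr
  rw [hg h c]
  by_cases hh : PlnhtLip r h
  · rw [if_pos hh, if_pos (e1.2 hh)]
  · rw [if_neg hh, if_neg fun k => hh (e1.1 k)]

theorem plnht_tr_le {G : (TV → ℤ) → ℝ} {r : ℕ} {M : ℝ} (hM : 0 < M) (hb : ∀ h, PlnhtLip r h → |G h| ≤ M) (h : TV → ℤ) :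
    |plnhtTr r M G h| ≤ 1 := by
  unfold plnhtTr
  split_ifs with hh
  · rw [abs_div, abs_of_pos hM, div_le_one hM]
    exact hb h hh
  · simp

theorem plnht_tr_eq {G : (TV → ℤ) → ℝ} {r : ℕ} {M : ℝ} (hM : 0 < M) {h : TV → ℤ} (hh : PlnhtLip r h) : G h = M * plnhtTr r M G h := by
  unfold plnhtTr
  rw [if_pos hh]
  field_simp

theorem plnht_co (c : TV) (R : ℕ) : LimCoConn (latBall c R) := by
  intro u v hu hv
  have h := plh_ball_compl_conn c R u (by simpa using hu) v (by simpa using hv)
  refine Relation.ReflTransGen.mono (fun a b (hab : TscStep tscG (↑(latBall c R) : Set TV)ᶜ a b) => ?_) u v h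
  exact ⟨hab.1, by simpa using hab.2.2⟩

/-- **the zero boundary laws of the hexagons centred at ANY `c` converge to the plane functional** (bounded observables) -/
theorem plnht_ball {x : ℝ} (hx : 0 < x) (P : LimPl0 x) {r : ℕ} (hr : 1 ≤ r) {Ψ : (TV → ℤ) → ℝ} (hl : HtLoc (latBall 0 r) Ψ) (hg : HtGrad Ψ)
    (hb : ∀ h, |Ψ h| ≤ 1) (c : TV) : Tendsto (fun R : ℕ => htE x (latBall c R) 0 Ψ) atTop (𝓝 (htPl x Ψ)) := by
  obtain ⟨C, κ, hC, hκ, hmix⟩ := P.mix
  have hL : Tendsto (fun R : ℕ => ((R + 1 - latN c : ℕ) : ℝ)) atTop atTop := by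
    refine tendsto_natCast_atTop_atTop.comp ?_
    refine tendsto_atTop_mono (fun R => ?_) (tendsto_sub_atTop_nat (latN c))
    omega
  have hz : Tendsto (fun R : ℕ => C * ((r : ℝ) / ((R + 1 - latN c : ℕ) : ℝ)) ^ κ) atTop (𝓝 0) := by
    have h1 : Tendsto (fun R : ℕ => (r : ℝ) / ((R + 1 - latN c : ℕ) : ℝ)) atTop (𝓝 0) := hL.const_div_atTop _
    have h2 := (Real.continuousAt_rpow_const 0 κ (Or.inr hκ.le)).tendsto.comp h1
    rw [Real.zero_rpow hκ.ne'] at h2
    simpa using h2.const_mul C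
  rw [tendsto_iff_dist_tendsto_zero]
  refine squeeze_zero' (Eventually.of_forall fun _ => dist_nonneg) ?_ hz
  filter_upwards [hL.eventually_ge_atTop (C * r), eventually_ge_atTop (latN c)] with R hR hRc
  have h := hmix (latBall c (R + 1)) 0 r (R + 1 - latN c) (plnht_co c _) hr hR
    (plh_ball_sub_ball (by rw [zero_sub, plh_N_neg]; omega)) (fun _ => 1) Ψ (fun _ _ _ => rfl) (fun _ => by simp) hl hg hb
  unfold htFz at h
  rw [plh_int_ball, ht_E_const hx (ht_adm_zero _), one_mul] at h
  simp only [one_mul] at h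
  rw [Real.dist_eq]
  exact h

/-- the same for every local gradient observable -/
theorem plnht_any {x : ℝ} (hx : 0 < x) (P : LimPl0 x) {S : Finset TV} {G : (TV → ℤ) → ℝ} (hl : HtLoc S G) (hg : HtGrad G) (c : TV) :
    Tendsto (fun R : ℕ => htE x (latBall c R) 0 G) atTop (𝓝 (htPl x G)) := by
  obtain ⟨r, hr, hS⟩ : ∃ r : ℕ, 1 ≤ r ∧ S ⊆ latBall 0 r := by
    refine ⟨1 + ∑ u ∈ S, latN u, by omega, fun u hu => ?_⟩
    rw [lat_mem_ball, sub_zero]
    have := Finset.single_le_sum (f := fun u => latN u) (fun _ _ => Nat.zero_le _) hu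
    omega
  obtain ⟨M, hM, hb⟩ := plnht_bound hl hg hS
  have key : ∀ c' : TV, Tendsto (fun R : ℕ => htE x (latBall c' R) 0 G) atTop (𝓝 (M * htPl x (plnhtTr r M G))) := by
    intro c'
    refine ((plnht_ball hx P hr (plnht_tr_loc hl hS M) (plnht_tr_grad hg r M) (plnht_tr_le hM hb) c').const_mul M).congr fun R => ?_
    rw [← ht_E_smul]
    exact ht_E_congr _ _ _ fun H hH => (plnht_tr_eq hM (plnht_lip_of_adm hH r)).symm
  rw [tendsto_nhds_unique (P.lim S G hl hg) (key 0)]
  exact key c

theorem exit_pln_ht (x : ℝ) (hx1 : 1 / Real.sqrt 2 ≤ x) (hx2 : x ≤ 1) : PlnHt x := by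
  have hx : 0 < x := lt_of_lt_of_le (by positivity) hx1
  have P := exit_lim_pl0 x hx1 hx2
  refine ⟨P.lim, fun S G c hl hg => ?_⟩
  classical
  have hl' : HtLoc (S.image (· + c)) (fun h => G (fun u => h (u + c))) := fun h h' e =>
    hl _ _ fun u hu => e _ (Finset.mem_image_of_mem _ hu)
  have hg' : HtGrad (fun h => G (fun u => h (u + c))) := fun h k => hg (fun u => h (u + c)) k
  refine tendsto_nhds_unique (P.lim _ _ hl' hg') ?_
  refine (plnht_any hx P hl hg (-c)).congr fun R => ?_
  have := ht_E_ball_trans x (-c) c R G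
  rw [neg_add_cancel] at this
  exact this.symm

end Claimed.Agent.R291
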