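import Claimed.Agent.R291.Pln.Mix

/-!
# Row 291, Exit/PlnMix : B2 = TEX[plane:lem:mixture] model free      (owner helper94)

`φ (m, j) = plnGam a g₁ (plnTr (m - j, 2 j) g₁)`, `g₁ = plnG (1, 0)`; PD0 = `PlnIn.rp` at `b = ∑ c τ g₁`, PD1 = `PlnIn.rp` at `τ_{(-1,1)} b`, bounded by
the spectral representation; `gsp_bh1` gives `γ` on `box × [0,1]`; Poisson mixture (92); division by `|e^{ik} - 1|²`.   Proof: Pln/Mix.lean.
-/

set_option autoImplicit false

namespace Claimed.Agent.R291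

open MeasureTheory

theorem exit_pln_mix {a : TV → ℝ} {Cf : Measure (ℝ × ℝ)} {K : ℝ} (h : PlnIn a) (hs : PlnSpec a Cf K) :
    ∃ ν : Measure (ℝ × ℝ), PlnMix Cf ν :=
  pln_mix_main h hs

end Claimed.Agent.R291
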