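import Claimed.Agent.R291.Pln.Cov
import Claimed.Agent.R291.Pln.Mix

/-!
# Row 291, Exit/PlnSpec : B1 = TEX[plane:lem:spectrum] model free      (statement helper94; adapter helper92; core helper179)

`exit_pln_spec : PlnIn a → ∃ Cf K, PlnSpec a Cf K` from `pl4_main` (`Pln/Cov.lean`): `PlnIn a → Pl4In a` (`pls_in`) and `Pl4Phys a C → PlnSpec a C K` (`pls_spec`).
-/

set_option autoImplicit false

namespace Claimed.Agent.R291

open MeasureTheory Claims Claims.C0467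
open scoped ComplexConjugate ENNReal

/-! ## 1. `PlnIn a → Pl4In a` -/

theorem pls_cov_eq {a : TV → ℝ} (ha : ∀ u, a (-u) = a u) (b b' : TV →₀ ℝ) : pl4Cov a b b' = plnGam a b b' := by
  unfold pl4Cov plnGam
  congr 1
  refine Finsupp.sum_congr fun u _ => Finsupp.sum_congr fun v _ => ?_
  rw [← ha (v - u), neg_sub]

theorem pls_gam_smul (a : TV → ℝ) (c : ℝ) (b : TV →₀ ℝ) : plnGam a (c • b) (c • b) = c ^ 2 * plnGam a b b := by
  rw [pln_gam_eq, pln_gam_eq, map_smul, map_smul, LinearMap.smul_apply, smul_eq_mul, smul_eq_mul]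
  ring

theorem pls_latN_le {u : TV} {N : ℕ} (h1 : |u.1| ≤ (N : ℤ)) (h2 : |u.2| ≤ (N : ℤ)) : latN u ≤ 2 * N := by
  unfold latN
  have := abs_le.1 h1
  have := abs_le.1 h2
  omega

theorem pls_in {a : TV → ℝ} (h : PlnIn a) : Pl4In a := by
  refine ⟨h.even, fun b hb => by rw [pls_cov_eq h.even]; exact h.psd b hb, fun A => ?_⟩
  obtain ⟨K, hK⟩ := h.sm
  refine ⟨(4 * A) ^ 2 * |K|, fun N b hN hb hsupp _ hsup => ?_⟩
  rw [pls_cov_eq h.even]
  have hNpos : (0 : ℝ) < N := by exact_mod_cast hN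
  rcases le_or_gt A 0 with hA | hA
  · have hb0 : b = 0 := by
      ext u
      have h1 := hsup u
      have h2 : A / (N : ℝ) ^ 2 ≤ 0 := div_nonpos_of_nonpos_of_nonneg hA (by positivity)
      exact abs_nonpos_iff.1 (h1.trans h2)
    rw [hb0]
    have : plnGam a 0 0 = 0 := by simp [plnGam]
    rw [this]
    positivity
  · set b' : TV →₀ ℝ := (4 * A)⁻¹ • b with hb'
    have hbb : b = (4 * A) • b' := by
      rw [hb', smul_smul, mul_inv_cancel₀ (by positivity), one_smul]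
    have h1 : plnGam a b' b' ≤ K := by
      refine hK (2 * N) (by omega) b' ?_ ?_ ?_
      · rw [hb', pln_tot_smul, hb, mul_zero]
      · intro u hu
        have hu' : u ∈ b.support := by
          rw [Finsupp.mem_support_iff] at hu ⊢
          intro h0
          apply hu
          rw [hb', Finsupp.smul_apply, h0, smul_zero]
        exact pls_latN_le (hsupp u hu').1 (hsupp u hu').2
      · intro u
        rw [hb', Finsupp.smul_apply, smul_eq_mul, abs_mul, abs_of_pos (by positivity : 0 < (4 * A)⁻¹)]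
        calc (4 * A)⁻¹ * |b u| ≤ (4 * A)⁻¹ * (A / (N : ℝ) ^ 2) := by
              gcongr
              exact hsup u
          _ = 1 / ((2 * N : ℕ) : ℝ) ^ 2 := by
              push_cast
              field_simp
              ring
    rw [hbb, pls_gam_smul]
    exact mul_le_mul_of_nonneg_left (h1.trans (le_abs_self K)) (by positivity)

/-! ## 2. `Pl4Phys a C → PlnSpec a C K` -/

theorem pls_ph_eq (p : ℝ × ℝ) (u : TV) : pl4Ph p u = plnPh p u := by
  simp [pl4Ph, plnPh, triPos]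

theorem pls_hat_eq (b : TV →₀ ℝ) (p : ℝ × ℝ) : pl4HatP b p = plnHat b p := by
  unfold pl4HatP plnHat
  simp_rw [pls_ph_eq]

theorem pls_ph_add (p : ℝ × ℝ) (u w : TV) : plnPh p (u + w) = plnPh p u + plnPh p w := by
  simp only [plnPh, Prod.fst_add, Prod.snd_add]
  push_cast
  ring

theorem pls_hat_tr (w : TV) (b : TV →₀ ℝ) (p : ℝ × ℝ) :
    plnHat (plnTr w b) p = Complex.exp (Complex.I * (plnPh p w : ℂ)) * plnHat b p := by
  unfold plnHat plnTr
  rw [Finsupp.sum_mapDomain_index (by simp) (by intro u x y; push_cast; ring), Finsupp.mul_sum]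
  refine Finsupp.sum_congr fun u _ => ?_
  rw [pls_ph_add]
  push_cast
  rw [mul_add, Complex.exp_add]
  ring

theorem pls_tot_tr (w : TV) (b : TV →₀ ℝ) : latTot (plnTr w b) = latTot b := by
  unfold latTot plnTr
  rw [Finsupp.sum_mapDomain_index (by simp) (by intros; rfl)]

theorem pls_sqrt3_sq : Real.sqrt 3 ^ 2 = 3 := Real.sq_sqrt (by norm_num)

theorem pls_two_sub_cos_le (x : ℝ) : 2 - 2 * Real.cos x ≤ min 4 (x ^ 2) := by
  refine le_min ?_ ?_
  · linarith [Real.neg_one_le_cos x]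
  · linarith [Real.one_sub_sq_div_two_le_cos (x := x)]

theorem pls_DD_le (p : ℝ × ℝ) : plnDD p ≤ 12 * min 1 (p.1 ^ 2 + p.2 ^ 2) := by
  have h3 := pls_sqrt3_sq
  set q := p.1 ^ 2 + p.2 ^ 2 with hq
  have e1 : plnPh p (1, 0) ^ 2 ≤ q := by
    have : plnPh p (1, 0) = p.1 := by simp [plnPh]
    rw [this, hq]
    nlinarith [sq_nonneg p.2]
  have e2 : plnPh p (0, 1) ^ 2 ≤ q := by
    have : plnPh p (0, 1) = p.1 / 2 + p.2 * Real.sqrt 3 / 2 := by
      simp [plnPh]; ring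
    rw [this, hq]
    nlinarith [sq_nonneg (Real.sqrt 3 / 2 * p.1 - p.2 / 2)]
  have e3 : plnPh p (-1, 1) ^ 2 ≤ q := by
    have : plnPh p (-1, 1) = -p.1 / 2 + p.2 * Real.sqrt 3 / 2 := by
      simp [plnPh]; ring
    rw [this, hq]
    nlinarith [sq_nonneg (Real.sqrt 3 / 2 * p.1 + p.2 / 2)]
  have hm : ∀ x : ℝ, x ^ 2 ≤ q → 2 - 2 * Real.cos x ≤ 4 * min 1 q := by
    intro x hx
    refine (pls_two_sub_cos_le x).trans ?_
    rcases le_total 1 q with h1 | h1
    · rw [min_eq_left h1]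
      exact (min_le_left _ _).trans (by norm_num)
    · rw [min_eq_right h1]
      have hq0 : 0 ≤ q := by rw [hq]; positivity
      exact (min_le_right _ _).trans (by linarith)
  unfold plnDD
  linarith [hm _ e1, hm _ e2, hm _ e3]

theorem pls_min_measurable : Measurable fun p : ℝ × ℝ => ENNReal.ofReal (min 1 (p.1 ^ 2 + p.2 ^ 2)) := by
  fun_prop

theorem pls_spec {a : TV → ℝ} (ha : ∀ u, a (-u) = a u) {C : Measure (ℝ × ℝ)} (h : Pl4Phys a C) :
    ∃ K : ℝ, PlnSpec a C K := by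
  obtain ⟨K₁, hK₁, hann⟩ := h.ann
  set I : ℝ≥0∞ := ∫⁻ p, ENNReal.ofReal (min 1 (p.1 ^ 2 + p.2 ^ 2)) ∂C with hI
  have hIfin : I < ⊤ := h.fin
  have hKK : ENNReal.ofReal (K₁.toReal + 16 * I.toReal) = K₁ + 16 * I := by
    rw [ENNReal.ofReal_add ENNReal.toReal_nonneg (by positivity), ENNReal.ofReal_toReal hK₁.ne,
      ENNReal.ofReal_mul (by norm_num), ENNReal.ofReal_toReal hIfin.ne]
    norm_num
  have hnorm : ∀ (b : TV →₀ ℝ) (p : ℝ × ℝ), conj (pl4HatP b p) * pl4HatP b p = ((‖plnHat b p‖ ^ 2 : ℝ) : ℂ) := by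
    intro b p
    rw [pls_hat_eq, Complex.conj_mul']
    push_cast
    rfl
  refine ⟨K₁.toReal + 16 * I.toReal, ?_, h.zero, ?_, ?_, ?_, ?_, ?_⟩
  · -- box
    have : (plnBoxᶜ : Set (ℝ × ℝ)) = {p | ¬ (pl4Ph p (1, 0) ∈ Set.Ioc (-Real.pi) Real.pi ∧
        pl4Ph p (0, 1) ∈ Set.Ioc (-Real.pi) Real.pi)} := by
      ext p
      have e1 : pl4Ph p (1, 0) = p.1 := by rw [pls_ph_eq]; simp [plnPh]
      have e2 : pl4Ph p (0, 1) = (p.1 + Real.sqrt 3 * p.2) / 2 := by
        rw [pls_ph_eq]; simp [plnPh]; ring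
      simp only [Set.mem_compl_iff, plnBox, Set.mem_ofPred_eq, e1, e2]
    rw [this]
    exact h.supp
  · -- int
    intro b hb
    have h1 := (h.int b b hb hb).re
    refine h1.congr (Filter.Eventually.of_forall fun p => ?_)
    show (conj (pl4HatP b p) * pl4HatP b p).re = _
    rw [hnorm, Complex.ofReal_re]
  · -- rep
    intro b w hb
    have h1 := h.cov b (plnTr w b) hb (by rw [pls_tot_tr, hb])
    rw [pls_cov_eq ha] at h1
    rw [← h1]
    refine integral_congr_ae (Filter.Eventually.of_forall fun p => ?_)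
    show conj (pl4HatP b p) * pl4HatP (plnTr w b) p
      = Complex.exp (Complex.I * (plnPh p w : ℂ)) * ((‖plnHat b p‖ ^ 2 : ℝ) : ℂ)
    rw [← hnorm, pls_hat_eq (plnTr w b), pls_hat_tr, pls_hat_eq]
    ring
  · -- rot
    intro G hG hG0
    refine h.rot G hG fun p hp => hG0 p ?_
    have : (1 : ℝ) ≤ Real.pi ^ 2 := by nlinarith [Real.pi_gt_three]
    exact this.trans hp
  · -- ann
    intro r hr hr2
    rw [hKK]
    rcases le_or_gt r (1 / 4) with h4 | h4
    · have := hann r hr h4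
      have e : {p : ℝ × ℝ | r ^ 2 ≤ plnSq p ∧ plnSq p ≤ 4 * r ^ 2}
          = {p | r ^ 2 ≤ p.1 ^ 2 + p.2 ^ 2 ∧ p.1 ^ 2 + p.2 ^ 2 ≤ (2 * r) ^ 2} := by
        ext p
        simp only [Set.mem_ofPred_eq, plnSq]
        rw [show (2 * r) ^ 2 = 4 * r ^ 2 by ring]
      rw [e]
      exact this.trans le_self_add
    · have hsub : {p : ℝ × ℝ | r ^ 2 ≤ plnSq p ∧ plnSq p ≤ 4 * r ^ 2}
          ⊆ {p | ENNReal.ofReal (1 / 16) ≤ ENNReal.ofReal (min 1 (p.1 ^ 2 + p.2 ^ 2))} := by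
        intro p hp
        refine ENNReal.ofReal_le_ofReal (le_min (by norm_num) ?_)
        have : (1 / 16 : ℝ) ≤ r ^ 2 := by nlinarith
        exact this.trans hp.1
      have hmk := mul_meas_ge_le_lintegral (μ := C) pls_min_measurable (ENNReal.ofReal (1 / 16))
      have h16 : (16 : ℝ≥0∞) * ENNReal.ofReal (1 / 16) = 1 := by
        rw [show (16 : ℝ≥0∞) = ENNReal.ofReal 16 by norm_num, ← ENNReal.ofReal_mul (by norm_num)]
        norm_num
      calc C {p | r ^ 2 ≤ plnSq p ∧ plnSq p ≤ 4 * r ^ 2}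
          ≤ C {p | ENNReal.ofReal (1 / 16) ≤ ENNReal.ofReal (min 1 (p.1 ^ 2 + p.2 ^ 2))} := measure_mono hsub
        _ = 16 * (ENNReal.ofReal (1 / 16) *
              C {p | ENNReal.ofReal (1 / 16) ≤ ENNReal.ofReal (min 1 (p.1 ^ 2 + p.2 ^ 2))}) := by
            rw [← mul_assoc, h16, one_mul]
        _ ≤ 16 * I := by gcongr
        _ ≤ K₁ + 16 * I := le_add_self
  · -- far
    rw [hKK]
    calc ∫⁻ p, ENNReal.ofReal (plnDD p) ∂C
        ≤ ∫⁻ p, 12 * ENNReal.ofReal (min 1 (p.1 ^ 2 + p.2 ^ 2)) ∂C := by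
          refine lintegral_mono fun p => ?_
          rw [show (12 : ℝ≥0∞) = ENNReal.ofReal 12 by norm_num, ← ENNReal.ofReal_mul (by norm_num)]
          exact ENNReal.ofReal_le_ofReal (pls_DD_le p)
      _ = 12 * I := by rw [lintegral_const_mul _ pls_min_measurable]
      _ ≤ 16 * I := by gcongr; norm_num
      _ ≤ K₁ + 16 * I := le_add_self

theorem exit_pln_spec {a : TV → ℝ} (h : PlnIn a) : ∃ (Cf : Measure (ℝ × ℝ)) (K : ℝ), PlnSpec a Cf K := by
  obtain ⟨C, hC⟩ := pl4_main (pls_in h) h.rot h.refl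
  obtain ⟨K, hK⟩ := pls_spec h.even hC
  exact ⟨C, K, hK⟩

end Claimed.Agent.R291
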