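import Claimed.Agent.R291.Pln.Inst
import Claimed.Agent.R291.Exit.PlnHt
import Claimed.Agent.R291.Exit.PlnSpec
import Claimed.Agent.R291.Exit.PlnMix
import Claimed.Agent.R291.Exit.PlnCore
import Claimed.Agent.R291.Exit.PlnCov
import Claimed.Agent.R291.Wick.Green

/-!
# Row 291, Exit/Pln : THE EXITS OF UNIT PLN (Sec. 4)      (owner helper94)

* `pln_main` : model free, `PlnIn a → ∃ v > 0, PlnPC (plnGam a) v ∧ PlnRN (plnGam a)`   (compiled glue of the four boxes B1, B2, B3-I, B3-II)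
* `exit_pln_in`, `exit_pln_gam` : the INSTANCE (B5): the variogram of the plane law `htPl x` satisfies `PlnIn`, and `htGam x = plnGam` on zero-total arrays
* `exit_pln` : TEX[prop:plane-covariance] + TEX[prop:reflection-null] for `htGam x`   (consumers: LIM [PC], PIN (R3))
-/

set_option autoImplicit false

namespace Claimed.Agent.R291

open Claims Claims.C0467 MeasureTheory Filter Topology

/-- Sec. 4, model free -/
theorem pln_main {a : TV → ℝ} (h : PlnIn a) : ∃ v : ℝ, 0 < v ∧ PlnPC (plnGam a) v ∧ PlnRN (plnGam a) := by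
  obtain ⟨Cf, K, hs⟩ := exit_pln_spec h
  obtain ⟨ν, hm⟩ := exit_pln_mix h hs
  obtain ⟨c, hc, hp⟩ := exit_pln_core hs hm
  obtain ⟨hc', h1, h2⟩ := exit_pln_cov h hs hc hp
  exact ⟨(2 * Real.pi) ^ 2 * c, by positivity, h1, h2⟩

/-- B5a: the plane law satisfies the hypotheses of Sec. 4.
`zero`: trivial; `psd`: limit of squares; `rot`, `refl`: invariances of the plane law (DIS, PLANE); `rp`: finite volume row conditioning in `latBall 0 R`
(symmetric under `latRefl`) + limit; `sm`: MOM Prop 3.7; `nd`: MOM Lemma 3.8. -/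
theorem exit_pln_in (x : ℝ) (hx1 : 1 / Real.sqrt 2 ≤ x) (hx2 : x ≤ 1) : PlnIn (plnVg x) :=
  pli_in hx1 hx2 (exit_pln_ht x hx1 hx2)

/-- B5b: bilinearity + stationarity of the plane covariance -/
theorem exit_pln_gam (x : ℝ) (hx1 : 1 / Real.sqrt 2 ≤ x) (hx2 : x ≤ 1) (b b' : TV →₀ ℝ) (hb : latTot b = 0)
    (hb' : latTot b' = 0) : htGam x b b' = plnGam (plnVg x) b b' :=
  pli_gam_eq (exit_pln_ht x hx1 hx2) hb hb'

/-- faces tile the plane (FRZ) -/
theorem pln_W_tot {δ : ℝ} (hδ : 0 < δ) {f : ℝ × ℝ → ℝ} (hf : Continuous f) (hc : HasCompactSupport f) :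
    latTot (plnW δ f) = ∫ z, f z :=
  pcv_W_tot hδ ⟨hf, hc⟩

/-- the Laplacian of a test function has integral zero, is continuous and has compact support -/
theorem pln_lap_test {η : ℝ × ℝ → ℝ} (h : ContDiff ℝ ((⊤ : ℕ∞) : WithTop ℕ∞) η) (hc : HasCompactSupport η) :
    Continuous (lap2 η) ∧ HasCompactSupport (lap2 η) ∧ ∫ z, lap2 η z = 0 := by
  have h2 : ContDiff ℝ 2 η := h.of_le (WithTop.coe_le_coe.2 le_top)
  refine ⟨wkg_lap_continuous h2, wkg_lap_compact hc, ?_⟩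
  have := wkg_green (D := Set.univ) isOpen_univ (u := fun _ => (1 : ℝ)) contDiffOn_const h2 hc (Set.subset_univ _)
  have e : lap2 (fun _ : ℝ × ℝ => (1 : ℝ)) = fun _ => 0 := by
    funext z
    simp [lap2]
  simpa [e] using this

theorem pln_map_tot (σ : TV → TV) (b : TV →₀ ℝ) : latTot (plnMap σ b) = latTot b := by
  unfold latTot plnMap
  exact Finsupp.sum_mapDomain_index (fun _ => rfl) (fun _ _ _ => rfl)

/-- **EXIT OF SEC. 4** -/
theorem exit_pln (x : ℝ) (hx1 : 1 / Real.sqrt 2 ≤ x) (hx2 : x ≤ 1) :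
    ∃ v : ℝ, 0 < v ∧ PlnPC (htGam x) v ∧ PlnRN (htGam x) := by
  obtain ⟨v, hv, h1, h2⟩ := pln_main (exit_pln_in x hx1 hx2)
  refine ⟨v, hv, ?_, ?_⟩
  · intro η g hη hηc hg hgc hg0
    refine (h1 η g hη hηc hg hgc hg0).congr' ?_
    filter_upwards [self_mem_nhdsWithin] with δ hδ
    obtain ⟨l1, l2, l3⟩ := pln_lap_test hη hηc
    exact (exit_pln_gam x hx1 hx2 _ _ (by rw [pln_W_tot hδ l1 l2, l3])
      (by rw [pln_W_tot hδ hg.continuous hgc, hg0])).symm
  · intro φ y0 m j hφ hφc hm hs hj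
    refine (h2 φ y0 m j hφ hφc hm hs hj).congr' ?_
    filter_upwards [self_mem_nhdsWithin] with δ hδ
    obtain ⟨l1, l2, l3⟩ := pln_lap_test hφ hφc
    exact (exit_pln_gam x hx1 hx2 _ _ (by rw [pln_map_tot, pln_W_tot hδ l1 l2, l3])
      (by rw [pln_W_tot hδ l1 l2, l3])).symm

end Claimed.Agent.R291
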