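import Claimed.Agent.R291.Defs.Lim
import Claimed.Agent.R291.Exit.LimPl0
import Claimed.Agent.R291.Exit.Pln
import Claimed.Agent.R291.Exit.MomPlane
import Claimed.Agent.R291.Mom.Smear
import Claimed.Agent.R291.Lim.DecA

/-!
# Row 291, Exit/LimPl : [PL] the plane package      (glue owner helper265; PRODUCERS: `exit_lim_pl0` (lim, mix: DIS + Mix/*), MOM helper122/164 (mom), PLN helper94/140 (v, cov); consumer LIM)
TEX[prop:local-mixing] TEX[cor:conditional-plane-matching] TEX[prop:plane-moments] TEX[prop:plane-covariance].  Statement = `∃ v > 0, LimPlane x v` of Defs/Lim (plane law = `htPl` of Defs/Ht).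
COMPILED GLUE: `lim`, `mix` = `exit_lim_pl0`; `mom` = `mom_plane_field` (164) + `exit_mom_plane`; `cov` = `exit_pln` (`PlnPC (htGam x) v`) + the adapter `lim_pl_cov` (`latPair` on any finite set containing the faces which meet the supports = `latArr (plnW ..)`).
-/

set_option autoImplicit false

namespace Claimed.Agent.R291

open MeasureTheory Filter Topology Set
open scoped ContDiff
open Claims Claims.C0467

/-- the array of face weights paired with a height = the pairing over ANY finite set containing the faces which meet the support -/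
theorem lim_pl_arr_eq {δ : ℝ} (hδ : 0 < δ) {f : ℝ × ℝ → ℝ} (hf : PcvT f) {S : Finset TV}
    (hS : ∀ w, (hexFace δ w ∩ tsupport f).Nonempty → w ∈ S) (h : TV → ℤ) : latArr (plnW δ f) h = latPair δ f S h := by
  unfold latArr latPair
  rw [Finsupp.sum_of_support_subset (plnW δ f) (s := S) ?_ (fun u c => c * (h u : ℝ)) (fun i _ => zero_mul _)]
  · exact Finset.sum_congr rfl fun u _ => by rw [pcv_W_apply hδ hf]
  · intro u hu
    rw [Finsupp.mem_support_iff, pcv_W_apply hδ hf] at hu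
    obtain ⟨z, hz, hfz⟩ := pcv_latW_supp hu
    exact hS u ⟨z, hz, subset_tsupport f hfz⟩

theorem lim_pl_pair_neg (δ : ℝ) (f : ℝ × ℝ → ℝ) (S : Finset TV) (h : TV → ℤ) :
    latPair δ (fun y => -f y) S h = -latPair δ f S h := by
  unfold latPair latW
  rw [← Finset.sum_neg_distrib]
  exact Finset.sum_congr rfl fun u _ => by rw [integral_neg, neg_mul]

/-- ADAPTER (PROVED): the field `cov` of `LimPlane` from `PlnPC (htGam x) v`.
Proof: `δ = d n`; the support of `latW δ f` is inside the faces which meet `tsupport f` (finite: `S n`), so `plnW δ f = ofSupportFinite ..` and `latArr (plnW δ f) h = latPair δ f (S n) h`;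
`latW δ (-lap2 η) = - latW δ (lap2 η)`, `tsupport (lap2 η) ⊆ tsupport η`; `htPl x (-G) = - htPl x G` by `h0.lim` (`G` local on `S n`, gradient since the two totals vanish: `pln_W_tot`, `pln_lap_test`);
compose `PlnPC` with `d → 0+`. -/
theorem lim_pl_cov {x v : ℝ} (h0 : LimPl0 x) (hpc : PlnPC (htGam x) v) :
    ∀ η g : ℝ × ℝ → ℝ, ContDiff ℝ ∞ η → HasCompactSupport η → ContDiff ℝ ∞ g → HasCompactSupport g → ∫ y, g y = 0 →
    ∀ (d : ℕ → ℝ) (S : ℕ → Finset TV), (∀ n, 0 < d n) → Tendsto d atTop (𝓝 0) →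
      (∀ n w, (hexFace (d n) w ∩ (tsupport η ∪ tsupport g)).Nonempty → w ∈ S n) →
      Tendsto (fun n => htPl x fun h => latPair (d n) (fun y => -lap2 η y) (S n) h * latPair (d n) g (S n) h) atTop (𝓝 (v * ∫ y, η y * g y)) := by
  intro η g hη hηc hg hgc hg0 d S hd hd0 hS
  obtain ⟨l1, l2, l3⟩ := pln_lap_test hη hηc
  have hT1 : PcvT (lap2 η) := ⟨l1, l2⟩
  have hT2 : PcvT g := ⟨hg.continuous, hgc⟩
  have hd' : Tendsto d atTop (𝓝[>] 0) := tendsto_nhdsWithin_iff.2 ⟨hd0, Eventually.of_forall hd⟩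
  have hlim := ((hpc η g hη hηc hg hgc hg0).comp hd').neg
  have e : -(-v * ∫ z, η z * g z) = v * ∫ y, η y * g y := by ring
  rw [e] at hlim
  refine hlim.congr fun n => ?_
  have t1 : latTot (plnW (d n) (lap2 η)) = 0 := by rw [pcv_W_tot (hd n) hT1, l3]
  have t2 : latTot (plnW (d n) g) = 0 := by rw [pcv_W_tot (hd n) hT2, hg0]
  have e1 : ∀ h, latArr (plnW (d n) (lap2 η)) h = latPair (d n) (lap2 η) (S n) h := fun h =>
    lim_pl_arr_eq (hd n) hT1 (fun w ⟨z, hz1, hz2⟩ => hS n w ⟨z, hz1, Or.inl (wkg_lap_tsupport η hz2)⟩) h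
  have e2 : ∀ h, latArr (plnW (d n) g) h = latPair (d n) g (S n) h := fun h =>
    lim_pl_arr_eq (hd n) hT2 (fun w ⟨z, hz1, hz2⟩ => hS n w ⟨z, hz1, Or.inr hz2⟩) h
  have e3 := lim_pl_smul h0 (pli_GG_loc (plnW (d n) (lap2 η)) (plnW (d n) g)) (pli_GG_grad t1 t2) (-1)
  show -htGam x (plnW (d n) (lap2 η)) (plnW (d n) g) = _
  unfold htGam
  rw [← neg_one_mul, ← e3]
  congr 1
  funext h
  rw [lim_pl_pair_neg, e1, e2]
  ring

theorem exit_lim_pl (x : ℝ) (hx1 : 1 / Real.sqrt 2 ≤ x) (hx2 : x ≤ 1) : ∃ v : ℝ, 0 < v ∧ LimPlane x v := by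
  obtain ⟨v, hv, hpc, -⟩ := exit_pln x hx1 hx2
  have h0 := exit_lim_pl0 x hx1 hx2
  exact ⟨v, hv, { toLimPl0 := h0
                  mom := mom_plane_field h0.lim (exit_mom_plane x hx1 hx2)
                  cov := lim_pl_cov h0 hpc }⟩

end Claimed.Agent.R291
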