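import Claimed.Agent.R291.Top.Mom
import Claimed.Agent.R291.Defs.Ht
import Claimed.Agent.R291.Lim.Main

/-!
# Row 291, Exit/LimMom : CONTRACT `exit_lim_mom`      (typed by helper115; OWNER = unit LIM, head helper181)

TEX 07-limit (Theorem 1.1 in moment form).  ONE constant `v = v(x) > 0` (the plane covariance constant of Prop 4.1) for all domains,
approximations and tests: all moments of the UNNORMALISED pairing converge to the Wick numbers of variance `v ∫_D f u`.
CONSUMER: `Hub.lean` (σ = √v, `tmm_top`).   FILLED (181): `lim_out` of Lim/Main.lean read through `ht_bridge_pow` (168).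
-/

set_option autoImplicit false

namespace Claimed.Agent.R291

open MeasureTheory ProbabilityTheory Filter Topology
open Claims Claims.C0467

theorem exit_lim_mom (x : ℝ) (hx1 : 1 / Real.sqrt 2 ≤ x) (hx2 : x ≤ 1) :
    ∃ v : ℝ, 0 < v ∧
      ∀ (D : Set (ℝ × ℝ)), IsC2JordanDomain D →
      ∀ (δ : ℕ → ℝ) (F : ℕ → Finset (ℤ × ℤ)), IsInsideApprox D δ F →
      ∀ f : ℝ × ℝ → ℝ, ContDiff ℝ ((⊤ : ℕ∞) : WithTop ℕ∞) f → HasCompactSupport f →
        tsupport f ⊆ D →
      ∀ u : ℝ × ℝ → ℝ, ContDiffOn ℝ 2 u D → ContinuousOn u (closure D) →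
        (∀ z ∈ frontier D, u z = 0) → (∀ z ∈ D, -lap2 u z = f z) →
      ∀ k : ℕ,
        Tendsto (fun n => lipschitzExpect x (δ n) 1 (F n) f (fun t => t ^ k)) atTop
          (𝓝 (tmmWick (v * ∫ z in D, f z * u z) k)) := by
  obtain ⟨v, hv, H⟩ := lim_out x hx1 hx2
  refine ⟨v, hv, fun D hD δ F hF f hf hfc hfs u hu huc hu0 hlap k => ?_⟩
  simp only [ht_bridge_pow, one_pow, div_one]
  exact H D hD δ F hF f hf hfc hfs u hu huc hu0 hlap k

end Claimed.Agent.R291
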