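import Claimed.Agent.R291.Defs.Mom
import Claimed.Agent.R291.Mom.Plane

/-!
# Row 291, Exit/MomNondeg      OWNER of the proof: helper122 (unit MOM)      TEX[lem:nondegeneracy] (moments:nondegeneracy)
Nondegeneracy, general form: `w` ANY finitely supported array which vanishes on the collar `latBall z1 (C1 R) \ latBall z1 R` (`C1` EXISTENTIAL since v2, 06:15Z); `m` = its mass in `latBall z1 R`.
Then `E Y^2 ≥ c m^2` in every flat problem containing `latBall z1 (C0 R)`.  (Signs, smoothness, the second disk, zero total are irrelevant.)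
Consumer: PLN l.707 (`c > 0` in the plane covariance): `w` = face weights of `f1 - f2`, `m = 1`.
-/

set_option autoImplicit false

namespace Claimed.Agent.R291

open Claims Claims.C0467

theorem exit_mom_nondeg (x : ℝ) (hx1 : 1 / Real.sqrt 2 ≤ x) (hx2 : x ≤ 1) :
    ∃ (c : ℝ) (R0 C0 C1 : ℕ), 0 < c ∧ ∀ (F : Finset TV) (z1 : TV) (R : ℕ) (w : TV →₀ ℝ),
      MomCo F → R0 ≤ R → latBall z1 (C0 * R) ⊆ F →
      (∀ u ∈ latBall z1 (C1 * R), u ∉ latBall z1 R → w u = 0) →
      c * (∑ u ∈ latBall z1 R, w u) ^ 2 ≤ htE x F 0 (fun h => (latArr w h) ^ 2) :=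
  mom_nd_main x hx1 hx2

end Claimed.Agent.R291
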