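import Claimed.Agent.R291.Defs.PinTop
import Claimed.Agent.R291.Pin.GapInst

/-!
# Row 291, Exit/PinGap : GAP CLOSING AND TRUNCATION      (PRODUCER: helper76, Pin/Gap.lean + Pin/GapInst.lean, PROVED; consumer: glue `exit_pin_filled`)
TEX[pins:gap-closing] + TEX[prop:bracket-insertion].      `hsep` = `exit_pin_sep` (48) at every small gap.
Inputs: `exit_dis_rare` (lower bound), `exit_dis_sync`, `exit_dis_fill`, N3b (39: `pin_mo_eq`, `pin_mo_fill`), (W2), (W3) of `Pin/Win` (74), `pin_fill_lim` of `Pin/Cont` (48).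
-/

set_option autoImplicit false

namespace Claimed.Agent.R291

open Claims Claims.C0467

theorem exit_pin_gap (x : ℝ) (hx1 : 1 / Real.sqrt 2 ≤ x) (hx2 : x ≤ 1) {D : Set (ℝ × ℝ)} {δ : ℕ → ℝ} {F : ℕ → Finset TV} {γ : Circle → ℝ × ℝ}
    {γs : ℕ → Circle → ℝ × ℝ} {CC0 : Finset Circle} {t : ℕ → ℝ} {z0 : ℝ × ℝ} {ρ : ℝ} {q : ℕ} {φ : ℝ × ℝ → ℝ} {g : Fin q → ℝ × ℝ → ℝ} {lm lp : ℝ}
    (H : PinStd D δ F γ γs CC0 t z0 ρ q φ g lm lp) {ε : ℝ} (hε0 : 0 < ε) (hε : ∀ i, i < CC0.card → 2 * ε ≤ t (i + 1) - t i)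
    (hsep : ∀ a : ℝ, 0 < a → a ≤ ε → PinSepAt x δ F γs t CC0.card φ g a ε) :
    PinFillAt x δ F γs t CC0.card φ g ε :=
  pin_gi_gap x hx1 hx2 H hε0 hε hsep

end Claimed.Agent.R291
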