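import Claimed.Agent.R291.Exit.PinSep
import Claimed.Agent.R291.Exit.PinGap

/-!
# Row 291, Exit/PinFilled : the insertion identity in the plane law conditioned on the FILLED upper pin      (COMPILED GLUE, helper34; consumer: `pin_brk_main` => `exit_pin_ins`)
TEX[prop:bracket-insertion] in the vocabulary `pinHat` / `PinAbs` of Defs/Pin (design D4).  Statement = `PinFilled` of Defs/Pin.
`P` = images by `γ` of the crossing parameters of the two chosen levels; `Dn n` = faces of `F n` visited by `γs n` on the closed arcs complementary to the `ε(r)`-windows.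
Glue: grid + choice of the levels + marks + angles (`Pin/Geo`, 74), (W1), (W2) (`Pin/Win`, 74), `exit_pin_sep` (48), `exit_pin_gap` (76).
-/

set_option autoImplicit false

namespace Claimed.Agent.R291

open MeasureTheory Filter Topology Set
open Claims Claims.C0467

/-- existence of the standing data of an arrangement -/
theorem pin_std_exists {D : Set (ℝ × ℝ)} (hD : IsC2JordanDomain D) {δ : ℕ → ℝ} {F : ℕ → Finset (ℤ × ℤ)} (hF : IsInsideApprox D δ F)
    {z0 : ℝ × ℝ} {ρ : ℝ} {q : ℕ} {φ : ℝ × ℝ → ℝ} {g : Fin q → ℝ × ℝ → ℝ} (hA : LimArr D z0 ρ q φ g) :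
    ∃ (γ : Circle → ℝ × ℝ) (γs : ℕ → Circle → ℝ × ℝ) (CC0 : Finset Circle) (t : ℕ → ℝ) (lm lp : ℝ), PinStd D δ F γ γs CC0 t z0 ρ q φ g lm lp := by
  classical
  obtain ⟨γ, γs, hb⟩ := hg_exists_bd hF
  obtain ⟨up, dn, hG⟩ := pin_geo_grid_exists hD hb.2.1 hb.2.2.1 hA.rho_pos hA.ball q
  choose cen rad hs using hA.g_supp
  obtain ⟨i, i', hi, hi', hmiss⟩ := hG.choose hA.rho_pos le_rfl cen rad fun j => (hs j).2.1
  obtain ⟨CC0, hCC⟩ := pin_geo_marks (γ := γ) {up i, dn i'} (by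
    intro y hy
    rw [Finset.mem_insert, Finset.mem_singleton] at hy
    rcases hy with rfl | rfl
    · exact hG.up_fin i
    · exact hG.dn_fin i')
  have hCC' : ∀ θ, θ ∈ CC0 ↔ (γ θ).2 = up i ∨ (γ θ).2 = dn i' := by
    intro θ
    rw [hCC θ, Finset.mem_insert, Finset.mem_singleton]
  have hne : CC0.Nonempty := by
    obtain ⟨θ, hθ⟩ := hG.up_ne i hi
    exact ⟨θ, (hCC' θ).2 (Or.inl hθ)⟩
  obtain ⟨t, ht⟩ := pin_geo_angles CC0 hne
  exact ⟨γ, γs, CC0, t, dn i', up i, hD, ⟨hF, hb, ht⟩, hA, hG.up_mem i hi, hG.dn_mem i' hi', hCC', fun l =>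
    ⟨cen l, rad l, (hs l).1, (hs l).2.2.1, (hs l).2.2.2.1, (hs l).2.2.2.2, (hmiss l).1, (hmiss l).2⟩⟩

theorem exit_pin_filled (x : ℝ) (hx1 : 1 / Real.sqrt 2 ≤ x) (hx2 : x ≤ 1) (D : Set (ℝ × ℝ)) (hD : IsC2JordanDomain D)
    (δ : ℕ → ℝ) (F : ℕ → Finset (ℤ × ℤ)) (hF : IsInsideApprox D δ F) : PinFilled x D δ F := by
  classical
  intro z0 ρ q φ g hA
  obtain ⟨γ, γs, CC0, t, lm, lp, H⟩ := pin_std_exists hD hF hA
  have hr : Set.range γ = frontier D := H.dat.bd.2.2.1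
  refine ⟨CC0.image γ, ?_, fun r hr0 => ?_⟩
  · intro c hc
    obtain ⟨θ, -, rfl⟩ := Finset.mem_image.1 hc
    exact hr ▸ mem_range_self θ
  obtain ⟨ε0, hε0, hW1⟩ := pin_win_W1 H.dat hr0
  obtain ⟨gp, hgp0, hgp⟩ := pin_win_gap H.dat.ang
  have hε : 0 < min ε0 (gp / 2) := lt_min hε0 (by positivity)
  have hgap : ∀ i, i < CC0.card → 2 * min ε0 (gp / 2) ≤ t (i + 1) - t i := fun i hi => by
    linarith [hgp i hi, min_le_right ε0 (gp / 2)]
  have hcard : 0 < CC0.card := by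
    rcases Nat.eq_zero_or_pos CC0.card with h0 | h0
    · have h1 := H.dat.ang.top
      rw [h0] at h1
      linarith [Real.pi_pos]
    · exact h0
  refine ⟨pinLab δ F γs t CC0.card (min ε0 (gp / 2)), ?_, ?_⟩
  · filter_upwards [hW1] with n hn
    refine ⟨?_, ?_, ?_⟩
    · intro u hu
      obtain ⟨i, -, hi⟩ := Finset.mem_biUnion.1 hu
      exact pin_win_sub_bd (H.dat.pos n) (H.dat.rng n) _ hi
    · obtain ⟨u, hu⟩ := pin_win_nonempty (H.dat.pos n) (H.dat.rng n) (pin_win_arc_nonempty (hgap 0 hcard))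
      exact ⟨u, Finset.mem_biUnion.2 ⟨0, Finset.mem_range.2 hcard, hu⟩⟩
    · intro u hu hnot
      obtain ⟨c, hc, hlt⟩ := hn (min ε0 (gp / 2)) hε (min_le_left _ _) u hu fun i hi hmem =>
        hnot (Finset.mem_biUnion.2 ⟨i, Finset.mem_range.2 hi, hmem⟩)
      exact ⟨γ c, Finset.mem_image_of_mem γ hc, hlt⟩
  · exact exit_pin_gap x hx1 hx2 H hε hgap fun a ha haε => exit_pin_sep x hx1 hx2 H ha haε hgap

end Claimed.Agent.R291
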