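import Claimed.Agent.R291.Pin.Brk
import Claimed.Agent.R291.Exit.PinFilled
import Claimed.Agent.R291.Exit.DisPinPos
import Claimed.Agent.R291.Exit.LimPl0

/-!
# Row 291, Exit/PinIns : the bracket insertion identity      (PRODUCER: unit PIN, head helper34, deputy helper48; consumer: the glue `pin_pack` => `exit_lim_brk`)
TEX[prop:bracket-insertion] TEX[pins:local-geometry] TEX[def:brackets] TEX[pins:trace-intervals].  Statement = `PinIns` of Defs/Pin.      COMPILED GLUE (node N2 = `pin_brk_main`, Pin/Brk.lean, 0 sorry).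
`ν_n(t) = pinNu` = law of the anchored trace under the plane law conditioned on the filled upper pin.   Inputs: `exit_pin_filled` (48, 74), `exit_dis_pin_pos` (DIS), `exit_lim_pl0` (`lim`).
-/

set_option autoImplicit false

namespace Claimed.Agent.R291

open Claims Claims.C0467

theorem exit_pin_ins (x : ℝ) (hx1 : 1 / Real.sqrt 2 ≤ x) (hx2 : x ≤ 1) (D : Set (ℝ × ℝ)) (hD : IsC2JordanDomain D)
    (δ : ℕ → ℝ) (F : ℕ → Finset (ℤ × ℤ)) (hF : IsInsideApprox D δ F) : PinIns x D δ F :=
  pin_brk_main (lt_of_lt_of_le (by positivity) hx1) (exit_lim_pl0 x hx1 hx2).lim (exit_dis_pin_pos x hx1 hx2)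
    (exit_pin_filled x hx1 hx2 D hD δ F hF)

end Claimed.Agent.R291
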