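import Claimed.Agent.R291.Exit.PlnHt
import Claimed.Agent.R291.Pin.Rp

/-!
# Row 291, Exit/PinPl : the plane package of unit PIN      (owner helper188; GLUE from `exit_pln_ht` of helper106)
TEX[prop:local-mixing].  `PinPl x` (Pin/Rp, helper48) = positivity of `x` + existence of `htPl x` on local gradient observables + translation invariance = `PlnHt x` (Defs/Pln, helper94).
-/

set_option autoImplicit false

namespace Claimed.Agent.R291

theorem exit_pin_pl (x : ℝ) (hx1 : 1 / Real.sqrt 2 ≤ x) (hx2 : x ≤ 1) : PinPl x :=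
  ⟨lt_of_lt_of_le (by positivity) hx1, (exit_pln_ht x hx1 hx2).lim, (exit_pln_ht x hx1 hx2).trans⟩

end Claimed.Agent.R291
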