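import Claimed.Agent.R291.Pin.Inst2
import Claimed.Agent.R291.Pin.DblInst
import Claimed.Agent.R291.Pin.Last

/-!
# Row 291, Exit/PinSep : SEPARATED INSERTION WITH COMMON OFFSET AT A FIXED GAP      (COMPILED GLUE, 0 sorry; consumer: `exit_pin_gap` through the glue `exit_pin_filled`)
TEX[pins:three-moves] + TEX[pins:common-offset-numerator] in the vocabulary `pinHat` / `PinAbs` (design D4: the common offset event is a PRODUCT of local factors for `pinHat`).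
`pin_sep` (48, Pin/Sep) + `pin_in_sp`, `pin_in_sp_core`, `pin_in_core_cov` (72, Pin/Inst2) + `pin_dj_std_both`, `pin_dj_std_pos` (138, Pin/DblInst) + `pin_la_r3_sep`, `pin_la_pl` (74, Pin/Last).
-/

set_option autoImplicit false

namespace Claimed.Agent.R291

open MeasureTheory Filter Topology Set
open Claims Claims.C0467

theorem exit_pin_sep (x : ℝ) (hx1 : 1 / Real.sqrt 2 ≤ x) (hx2 : x ≤ 1) {D : Set (ℝ × ℝ)} {δ : ℕ → ℝ} {F : ℕ → Finset TV} {γ : Circle → ℝ × ℝ}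
    {γs : ℕ → Circle → ℝ × ℝ} {CC0 : Finset Circle} {t : ℕ → ℝ} {z0 : ℝ × ℝ} {ρ : ℝ} {q : ℕ} {φ : ℝ × ℝ → ℝ} {g : Fin q → ℝ × ℝ → ℝ} {lm lp : ℝ}
    (H : PinStd D δ F γ γs CC0 t z0 ρ q φ g lm lp) {a ε : ℝ} (ha : 0 < a) (haε : a ≤ ε) (hε : ∀ i, i < CC0.card → 2 * ε ≤ t (i + 1) - t i) :
    PinSepAt x δ F γs t CC0.card φ g a ε := by
  intro Mt hMt
  have hP : PinPl x := pin_la_pl x hx1 hx2
  obtain ⟨kd, ks, obj, M, κ, m0, hm0, hS, hy1, hkd, hks, hT, hB, hAt⟩ := pin_in_sp H ha haε hε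
  have hAt' := hAt Mt hMt.le (fun n => pinInCore (δ n) (F n) z0 (ρ / 1000)) (pin_in_sp_core H).1 (pin_in_sp_core H).2
  obtain ⟨hDX, hD1⟩ := pin_dj_std_both hx1 hx2 hP H ha haε hε (pin_in_core_cov H)
  have hpos : ∀ᶠ n in atTop, ∀ i ∈ Finset.range CC0.card,
      0 < pinPer x fun h => pinI (PinLoc (pinGp δ F γs t a n i) (pinGp δ F γs t ε n i) h) :=
    Eventually.of_forall fun n i hi => pin_dj_std_pos hP (pin_mo_exit_pos x hx1 hx2) H.dat haε hε n hi
  have key := pin_sep hP H.dat.pos H.dat.app.2.1 hS (Finset.range CC0.card) Finset.univ kd ks hkd hks hT hB hm0 hAt' hpos hDX hD1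
    (pin_la_r3_sep x hx1 hx2 H.dom H.dat.app H.arr hy1)
  refine key.congr fun n => ?_
  congr 2
  funext h
  unfold pinAl pinObs
  rw [pin_I_prod]
  ring

end Claimed.Agent.R291
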